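import Vale.Agent.P366Y.D.Defs

/-!
# P366Y, block D, row CUT1: the terms of order at most one in the zone of the cut
-/

open MeasureTheory Metric Filter Topology Set
open scoped ContDiff ENNReal
open Vale.Agent.P366.Stmt Vale.Agent.P366Z
open Vale.Agent.P366Y.J (Jk rc_zero rc_mem sm_rc)

noncomputable section

namespace Vale.Agent.P366Y.D

variable {n : ℕ}

namespace Cut1

theorem ipb {g : Field n} {u v : E n → ℝ} {x : E n} {B a b : ℝ} (h : ∀ i j, |up g i j x| ≤ B)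
    (hu : ∀ i, |pd i u x| ≤ a) (hv : ∀ i, |pd i v x| ≤ b) : |ip g u v x| ≤ n ^ 2 * B * a * b := by
  have k : ∀ i j, |up g i j x * pd i u x * pd j v x| ≤ B * a * b := fun i j => by
    rw [abs_mul, abs_mul]
    have h0 := (abs_nonneg _).trans (h i j)
    have h1 := (abs_nonneg _).trans (hu i)
    exact mul_le_mul (mul_le_mul (h i j) (hu i) (abs_nonneg _) h0) (hv j) (abs_nonneg _)
      (mul_nonneg h0 h1)
  refine (Finset.abs_sum_le_sum_abs _ _).trans ((Finset.sum_le_sum fun i _ =>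
    (Finset.abs_sum_le_sum_abs _ _).trans (Finset.sum_le_sum fun j _ => k i j)).trans_eq ?_)
  simp only [Finset.sum_const, Finset.card_univ, Fintype.card_fin, nsmul_eq_mul]
  ring

theorem atan (z : ℝ) : |Real.arctan z| ≤ |z| := by
  have := (convex_univ.norm_image_sub_le_of_norm_deriv_le (f := Real.arctan) (C := 1)
    (fun y _ => Real.differentiableAt_arctan y) (fun y _ => by
      rw [Real.deriv_arctan, Real.norm_eq_abs, abs_of_nonneg (by positivity)]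
      exact (div_le_one (by positivity)).2 (by nlinarith [sq_nonneg y])) (mem_univ 0) (mem_univ z))
  simpa using this

theorem pdm {u v : E n → ℝ} {x : E n} {B a : ℝ} (hB : 1 ≤ B) (hu : DifferentiableAt ℝ u x)
    (hv : DifferentiableAt ℝ v x) (u1 : 0 ≤ u x ∧ u x ≤ 1) (u2 : ∀ i, |pd i u x| ≤ B)
    (v1 : |v x| ≤ a) (v2 : ∀ i, |pd i v x| ≤ a) (i : Fin n) :
    |pd i (fun y => u y * v y) x| ≤ 2 * B * a := by
  rw [pd_mul hu hv]
  refine (abs_add_le _ _).trans ?_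
  rw [abs_mul, abs_mul, abs_of_nonneg u1.1]
  have a0 := (abs_nonneg _).trans v1
  have h1 := mul_le_mul (u2 i) v1 (abs_nonneg _) (by linarith)
  have h2 := mul_le_mul (u1.2.trans hB) (v2 i) (abs_nonneg _) (by linarith)
  linarith

theorem zone {X : Dat n} {P : Pa} {M θ K₀ ε A K : ℝ} {ψ f : E n → ℝ} (hX : X.Ok) (hP : P.Ok)
    (h : Jk X P M θ K₀ ε A K ψ f) (hε : ε ≤ 1) (hA : 1 ≤ A) {x : E n} (h4 : X.R + 4 ≤ ‖x‖)
    (h6 : ‖x‖ ≤ X.R + 6) : |f x| ≤ ε ∧ (∀ i, |pd i f x| ≤ ε) ∧ |cp X P A f x| ≤ 2 * ε ∧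
      (X.R + 5 ≤ ‖x‖ → DifferentiableAt ℝ (cp X P A f) x ∧ ∀ i, |pd i (cp X P A f) x| ≤ 2 * ε) := by
  obtain ⟨t1, t2⟩ := h.tiny x h4 h6
  obtain ⟨-, -, τ0, τ1, F1, -, p0, p1, -⟩ := hP.pos
  have A2 : 1 ≤ A ^ 2 := one_le_pow₀ hA
  have t3 : ∀ i, A ^ 2 * |pd i f x| ≤ ε := fun i =>
    (mul_le_mul_of_nonneg_left (norm_le_pi_norm (D1 f x) i) (by positivity)).trans t2
  have f1 : |f x| ≤ ε := by nlinarith [abs_nonneg (f x)]
  have e : ∀ y, X.R + 4 ≤ ‖y‖ → |f y| ≤ 4 * P.F₀ →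
      cp X P A f y = P.τ * f y + P.p₁ * Real.arctan (A ^ 2 * f y) := fun y hy k => by
    rw [cp, cap, hP.Tl _ k, rc_zero (by linarith [hX.R1]) (by linarith), div_div_eq_mul_div,
      div_one, mul_comm (f y)]
    ring
  refine ⟨f1, fun i => by nlinarith [t3 i, abs_nonneg (pd i f x)], ?_, fun h5 => ?_⟩
  · rw [e x h4 (by linarith)]
    refine (abs_add_le _ _).trans ?_
    have := atan (A ^ 2 * f x)
    rw [abs_mul, abs_of_nonneg (sq_nonneg A)] at this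
    rw [abs_mul, abs_mul, abs_of_pos τ0, abs_of_pos p0]
    nlinarith [abs_nonneg (f x), abs_nonneg (Real.arctan (A ^ 2 * f x))]
  have ev : cp X P A f =ᶠ[𝓝 x] fun y => P.τ * f y + P.p₁ * Real.arctan (A ^ 2 * f y) := by
    filter_upwards [continuous_norm.continuousAt.eventually (lt_mem_nhds
      (show X.R + 4 < ‖x‖ by linarith)), h.sm.cont.abs.continuousAt.eventually (gt_mem_nhds
      (show |f x| < 4 * P.F₀ by linarith))] with y k k'
    exact e y k.le k'.le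
  have hd : HasDerivAt (fun z => P.τ * z + P.p₁ * Real.arctan (A ^ 2 * z))
      (P.τ * 1 + P.p₁ * (1 / (1 + (A ^ 2 * f x) ^ 2) * (A ^ 2 * 1))) (f x) :=
    ((hasDerivAt_id' _).const_mul _).fun_add
      ((((hasDerivAt_id' _).const_mul _).arctan).const_mul _)
  refine ⟨(hd.differentiableAt.comp x (h.sm.diff x)).congr_of_eventuallyEq ev, fun i => ?_⟩
  have c1 : 1 / (1 + (A ^ 2 * f x) ^ 2) ≤ 1 :=
    (div_le_one (by positivity)).2 (by nlinarith [sq_nonneg (A ^ 2 * f x)])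
  have c0 : 0 ≤ 1 / (1 + (A ^ 2 * f x) ^ 2) := by positivity
  rw [pd_congr ev, pd_comp hd (h.sm.diff x), abs_mul, abs_of_nonneg (by positivity)]
  have c2 : P.p₁ * (1 / (1 + (A ^ 2 * f x) ^ 2) * (A ^ 2 * 1)) ≤ A ^ 2 := by
    have := mul_le_one₀ p1 c0 c1
    nlinarith
  have c3 : P.τ * 1 + P.p₁ * (1 / (1 + (A ^ 2 * f x) ^ 2) * (A ^ 2 * 1)) ≤ 2 * A ^ 2 := by linarith
  have := mul_le_mul_of_nonneg_right c3 (abs_nonneg (pd i f x))
  linarith [t3 i]

end Cut1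

theorem cut1 : CUT1 := by
  intro n X P s₁ B e hX hP hB he
  have B1 := hB.B1.1
  obtain ⟨N, hN⟩ : ∃ N : ℝ, N = n ^ 2 * B := ⟨_, rfl⟩
  have N0 : 0 ≤ N := by rw [hN]; positivity
  refine ⟨min 1 (e / (8 * N * B ^ 2 + 2)), by positivity,
    fun ε hε A hA M θ K₀ K ψ f h x => ?_⟩
  have e1 : ε ≤ 1 := hε.trans (min_le_left _ _)
  have e2 : ε * (8 * N * B ^ 2 + 2) ≤ e :=
    (le_div_iff₀ (by positivity)).1 (hε.trans (min_le_right _ _))
  have B2 : 1 ≤ B ^ 2 := one_le_pow₀ B1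
  have up : ‖x‖ ≤ X.R + 6 → ∀ i j, |up X.g i j x| ≤ B := fun k =>
    (hB.bd x (by linarith [hX.Rρ])).2.2.2.2
  have sm : ∀ c : ℝ, 0 ≤ ε → 0 ≤ c → c ≤ 8 * B ^ 2 → 2 * ε ≤ e ∧ N * c * ε * ε ≤ e :=
    fun c e0 c0 c1 => by
      have k1 : 0 ≤ ε * (N * B ^ 2) := by positivity
      have k2 : N * c * ε * ε ≤ N * c * ε := mul_le_of_le_one_right (by positivity) e1
      have k3 : N * c * ε ≤ N * (8 * B ^ 2) * ε := by gcongr
      exact ⟨by linarith, by linarith⟩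
  refine ⟨fun h4 h6 => ?_, fun h5 => ?_⟩
  · obtain ⟨z1, z2, z3, -⟩ := Cut1.zone hX hP h e1 hA h4 h6
    obtain ⟨s1, s2⟩ := sm 1 ((abs_nonneg _).trans z1) zero_le_one (by linarith)
    have := (le_abs_self _).trans (Cut1.ipb (up h6) z2 z2)
    rw [← hN] at this
    exact ⟨z3.trans s1, by linarith⟩
  rcases le_or_gt ‖x‖ (X.R + 6) with h6 | h6
  · obtain ⟨z1, z2, z3, z4⟩ := Cut1.zone hX hP h e1 hA (by linarith) h6
    obtain ⟨z4, z5⟩ := z4 h5
    have e0 := (abs_nonneg _).trans z1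
    have c := fun i => (hB.cut x i i).2.1
    have d := (sm_rc (X.R + 5)).diff x
    have m := rc_mem (X.R + 5) x
    have q1 := Cut1.pdm B1 d (h.sm.diff x) m c z1 z2
    have q2 := Cut1.pdm B1 d z4 m c z3 z5
    have r1 : |ip X.g (fh X f) (fh X f) x| ≤ _ := Cut1.ipb (up h6) q1 q1
    have r2 : |ip X.g (Tt X P A f) (fh X f) x| ≤ _ := Cut1.ipb (up h6) q2 q1
    rw [← hN] at r1 r2
    obtain ⟨s1, s2⟩ := sm (4 * B ^ 2) e0 (by positivity) (by linarith)
    obtain ⟨-, s3⟩ := sm (8 * B ^ 2) e0 (by positivity) le_rfl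
    refine ⟨by linarith [le_abs_self (ip X.g (fh X f) (fh X f) x)], ?_,
      by linarith [neg_abs_le (ip X.g (Tt X P A f) (fh X f) x)]⟩
    rw [Tt, abs_mul, abs_of_nonneg m.1]
    exact (mul_le_of_le_one_left (abs_nonneg _) m.2).trans (z3.trans s1)
  · have R0 : 0 ≤ X.R + 5 := by linarith [hX.R1]
    have ev : fh X f =ᶠ[𝓝 x] fun _ => 0 := by
      filter_upwards [continuous_norm.continuousAt.eventually (lt_mem_nhds h6)] with y k
      rw [fh, rc_zero R0 (by linarith), zero_mul]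
    rw [ip_congr EventuallyEq.rfl ev, ip_congr EventuallyEq.rfl ev, ip_const_right, ip_const_right,
      Tt, rc_zero R0 (by linarith), zero_mul, abs_zero]
    exact ⟨he.le, he.le, by linarith⟩

end Vale.Agent.P366Y.D
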