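import Vale.Agent.P366Y.D.Defs

/-!
# P366Y, block D: the trace of the Hessian in the zone of the cut (row CUT2)
-/

open MeasureTheory Metric Filter Topology Set
open scoped ContDiff ENNReal
open Vale.Agent.P366.Stmt Vale.Agent.P366Z
open Vale.Agent.P366Y.C (gt b2)

noncomputable section

namespace Vale.Agent.P366Y.D

namespace Cut2H

variable {n : ℕ} {a b c d : ℝ}

theorem s1 {v : Fin n → ℝ} (h : ∀ i, |v i| ≤ c) : |∑ i, v i| ≤ n * c :=
  (Finset.abs_sum_le_sum_abs _ _).trans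
    ((Finset.sum_le_card_nsmul _ _ c fun i _ => h i).trans_eq (by simp))

theorem m2 (h : |a| ≤ c) (k : |b| ≤ d) : |a * b| ≤ c * d :=
  (abs_mul a b).trans_le (mul_le_mul h k (abs_nonneg _) ((abs_nonneg _).trans h))

theorem a2 (h : |a| ≤ c) (k : |b| ≤ d) : |a + b| ≤ c + d := (abs_add_le a b).trans (add_le_add h k)

theorem d2 (h : |a| ≤ c) (k : |b| ≤ d) : |a - b| ≤ c + d := (abs_sub a b).trans (add_le_add h k)

theorem atan (t : ℝ) : |Real.arctan t| ≤ |t| := by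
  simpa using convex_univ.norm_image_sub_le_of_norm_hasDerivWithin_le (C := 1)
    (f' := fun x => 1 / (1 + x ^ 2)) (fun x _ => (Real.hasDerivAt_arctan x).hasDerivWithinAt)
    (fun x _ => by
      rw [Real.norm_eq_abs, abs_of_pos (by positivity)]
      exact (div_le_one (by positivity)).2 (le_add_of_nonneg_right (sq_nonneg x)))
    (mem_univ 0) (mem_univ t)

theorem gs2 (P : Pa) (hL : 0 ≤ P.L) {t : ℝ} (ht : 0 ≤ t) : |P.Gs 2 t| ≤ 4 * P.L := by
  have e : P.G 2 = fun t => Real.log (1 + 4 * P.L * t) := funext fun t => by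
    rw [Pa.G, show P.L * 2 ^ 2 = 4 * P.L by ring, show (2 : ℝ) ^ 2 / 4 = 1 by norm_num,
      Real.log_one]
    ring
  have h := (((hasDerivAt_id' t).const_mul (4 * P.L)).const_add 1).log (by positivity)
  rw [Pa.Gs, e, h.deriv, mul_one, abs_of_nonneg (by positivity)]
  exact div_le_self (by positivity) (le_add_of_nonneg_right (by positivity))

theorem om2 (P : Pa) {t : ℝ} (ht : 0 ≤ t) : |P.om 2 t| ≤ 1 + t := by
  rw [Pa.om, abs_of_nonneg (Real.sqrt_nonneg _)]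
  exact Real.sqrt_le_iff.2 ⟨by positivity, by nlinarith⟩

theorem pm {χ f : E n → ℝ} (hχ : Smooth χ) (hf : Smooth f) (j : Fin n) :
    pd j (fun y => χ y * f y) = fun y => pd j χ y * f y + χ y * pd j f y :=
  funext fun y => pd_mul (hχ.diff y) (hf.diff y) j

theorem hm {χ f : E n → ℝ} (hχ : Smooth χ) (hf : Smooth f) (g : Field n) (x : E n) (i j : Fin n) :
    hess g (fun y => χ y * f y) x i j = χ x * hess g f x i j + (pd i (pd j χ) x * f x +
      pd j χ x * pd i f x + pd i χ x * pd j f x - ∑ k, chr g k i j x * (pd k χ x * f x)) := by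
  simp only [hess, pm hχ hf]
  rw [pd_add (Smooth.diff (ContDiff.mul (hχ.pd j) hf) x) (Smooth.diff (ContDiff.mul hχ (hf.pd j)) x),
    pd_mul ((hχ.pd j).diff x) (hf.diff x), pd_mul (hχ.diff x) ((hf.pd j).diff x)]
  simp only [mul_add, mul_sub, Finset.sum_add_distrib, Finset.mul_sum, mul_left_comm (χ x)]
  ring

end Cut2H

open Cut2H

/-- row CUT2 -/
theorem cut2 : CUT2 := by
  refine ⟨0, fun n X P s₁ B K₀ e hC hB he => ?_⟩
  obtain ⟨-, p2, p3, p4, p5, -, p7, p8, -⟩ := hC.hP.pos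
  have B1 := hB.B1.1
  have R1 := hC.hX.R1
  have hg := J.mg hC.hX
  obtain ⟨σ, hσ⟩ : ∃ σ : ℝ, σ = |K₀| + n * B := ⟨_, rfl⟩
  obtain ⟨ρ, hρ⟩ : ∃ ρ : ℝ, ρ = B + B + B + n * (B * B) := ⟨_, rfl⟩
  have σ0 : 0 ≤ σ := by rw [hσ]; positivity
  have ρ0 : 0 ≤ ρ := by rw [hρ]; positivity
  obtain ⟨Q, hQ⟩ : ∃ Q : ℝ, Q = 2 * (1 + n * (n * B)) + 4 * P.L * n ^ 4 * B ^ 2 * σ +
    n ^ 2 * B * ρ + P.L * n ^ 4 * (B * (B + 1)) ^ 2 * (σ + ρ) := ⟨_, rfl⟩
  have Q0 : 0 < Q := by rw [hQ]; positivity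
  refine ⟨min 1 (e / Q), by positivity, fun ε hε A hA M θ K ψ f hψ h x hx lam hl => ?_⟩
  by_cases hx' : ‖x‖ ≤ X.R + 6
  swap
  · have e0 : fh X f =ᶠ[𝓝 x] fun _ => 0 := by
      filter_upwards [(isOpen_lt continuous_const continuous_norm).mem_nhds (not_le.1 hx')]
        with y hy
      rw [fh, J.rc_zero (by linarith) (by linarith [show X.R + 6 < ‖y‖ from hy]), zero_mul]
    have e1 : ∀ j, pd j (fh X f) =ᶠ[𝓝 x] fun _ => 0 := fun j =>
      (pd_congr_ev e0 j).trans (.of_forall fun y => pd_const 0 j y)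
    have e2 : ∀ i j, hess X.g (fh X f) x i j = 0 := fun i j => by
      simp [hess, pd_congr (e1 j), pd_const, fun k => (e1 k).self_of_nhds]
    simp [gt, tr, b2, e2, he.le]
  obtain ⟨t1, t2⟩ := h.tiny x (by linarith) hx'
  have A2 : 1 ≤ A ^ 2 := one_le_pow₀ hA
  have ε0 : 0 ≤ ε := le_trans (by positivity) t1
  have ε1 : ε ≤ 1 := hε.trans (min_le_left _ _)
  obtain ⟨δ, hδ⟩ : ∃ δ : ℝ, δ = ε / A ^ 2 := ⟨_, rfl⟩
  have δ0 : 0 ≤ δ := by rw [hδ]; positivity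
  have w1 : δ ≤ ε := hδ ▸ div_le_self ε0 A2
  have δ1 : δ ≤ 1 := w1.trans ε1
  have δA : δ ≤ A := δ1.trans hA
  have w2 : δ * δ * A ≤ ε := by
    refine (mul_le_mul_of_nonneg_right (mul_le_mul_of_nonneg_left δA δ0) (by positivity)).trans_eq ?_
    rw [hδ]
    field_simp
  have hz : |f x| ≤ δ := by rw [hδ, le_div_iff₀' (by positivity)]; exact t1
  have hp : ∀ i, |pd i f x| ≤ δ := fun i => (norm_le_pi_norm (D1 f x) i).trans (by
    rw [hδ, le_div_iff₀' (by positivity)]; exact t2)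
  obtain ⟨-, -, -, hΓ, hu⟩ := hB.bd x (by linarith [hC.hX.Rρ])
  have hd : ∀ i, |pd i (rc (X.R + 5)) x| ≤ B := fun i => (hB.cut x i i).2.1
  have hχ : ∀ r, |rc r x| ≤ 1 := fun r => abs_le.2 ⟨by linarith [(J.rc_mem r x).1], (J.rc_mem r x).2⟩
  have hS : ∀ i j, |hess X.g f x i j| ≤ σ * A := fun i j => by
    refine (d2 (c := |K₀| * A) (((norm_le_pi_norm (D2 f x i) j).trans (norm_le_pi_norm (D2 f x) i)).trans
      ((h.d2 x).trans (by gcongr; exact le_abs_self _))) (s1 fun k => m2 (hΓ k i j) (hp k))).trans ?_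
    rw [hσ, add_mul, mul_assoc]
    gcongr
  have hr : ∀ i, |rs X.g x (D1 f x) i| ≤ n * (B * δ) := fun i => s1 fun j => m2 (hu i j) (hp j)
  have t0 := hg.ip_nonneg f x
  have ht : ip X.g f f x ≤ n * (n * B) := (le_abs_self _).trans
    ((s1 fun i => s1 fun j => m2 (m2 (hu i j) ((hp i).trans δ1)) ((hp j).trans δ1)).trans_eq
      (by ring))
  have hcap : |cap X P (1 / A ^ 2) x (f x)| ≤ 1 * ε + 1 * ε := by
    rw [cap, hC.hP.Tl _ (by linarith), J.rc_zero (by linarith) (by linarith), zero_mul, zero_add,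
      sub_zero, one_mul P.p₁]
    refine a2 (m2 ((abs_of_pos p3).trans_le p4) (hz.trans w1))
      (m2 ((abs_of_pos p7).trans_le p8) ((atan _).trans ?_))
    rwa [one_div, div_inv_eq_mul, abs_mul, abs_of_pos (by positivity : 0 < A ^ 2), mul_comm]
  have q := h.eqn x (by linarith)
  rw [hC.hX.K0 x (by linarith), hψ.two x hx, show pr2 (ag X P ψ x (D1 f x)) 0 = 0 by simp [pr2],
    zero_add] at q
  have h1 : tr X.g (hess X.g f) x = P.om 2 (ip X.g f f x) * cap X P (1 / A ^ 2) x (f x) +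
      ∑ i, ∑ j, rc (X.R + 7) x * P.Gs 2 (ip X.g f f x) * rs X.g x (D1 f x) i *
        rs X.g x (D1 f x) j * hess X.g f x i j := by
    rw [← q, ← hψ.two x hx]
    simp only [pr2, ag, sub_mul, Finset.sum_sub_distrib]
    exact (sub_add_cancel _ _).symm
  have h2 := h1 ▸ a2 (m2 ((om2 P t0).trans (add_le_add_right ht 1)) hcap) (s1 fun i => s1 fun j =>
    m2 (m2 (m2 (m2 (hχ (X.R + 7)) (gs2 P (by linarith) t0)) (hr i)) (hr j)) (hS i j))
  have sχ := J.sm_rc (n := n) (X.R + 5)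
  obtain ⟨T, hT, e3⟩ : ∃ T : Mx n, (∀ i j, |T i j| ≤ ρ * δ) ∧ ∀ i j,
      hess X.g (fh X f) x i j = rc (X.R + 5) x * hess X.g f x i j + T i j :=
    ⟨_, fun i j => (d2 (a2 (a2 (m2 (hB.cut x i j).2.2 hz) (m2 (hd j) (hp i))) (m2 (hd i) (hp j)))
      (s1 fun k => m2 (hΓ k i j) (m2 (hd k) hz))).trans_eq (by rw [hρ]; ring), hm sχ h.sm X.g x⟩
  have h3 : tr X.g (hess X.g (fh X f)) x =
      rc (X.R + 5) x * tr X.g (hess X.g f) x + ∑ i, ∑ j, up X.g i j x * T i j := by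
    simp only [tr, e3, mul_add, Finset.sum_add_distrib, Finset.mul_sum,
      mul_left_comm (rc (X.R + 5) x)]
  have h4 := h3 ▸ a2 (m2 (hχ (X.R + 5)) h2) (s1 fun i => s1 fun j => m2 (hu i j) (hT i j))
  have h5 : ∀ i j, |hess X.g (fh X f) x i j| ≤ (σ + ρ) * A := fun i j => by
    rw [e3, add_mul]
    exact a2 ((m2 (hχ _) (hS i j)).trans_eq (one_mul _)) ((hT i j).trans (by gcongr))
  have h6 : ∀ i, |gr X.g (fh X f) i x| ≤ n * (B * (B * δ + 1 * δ)) := fun i => s1 fun j =>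
    m2 (hu i j) ((congrArg abs (congrFun (pm sχ h.sm j) x)).trans_le
      (a2 (m2 (hd j) hz) (m2 (hχ _) (hp j))))
  have h7 := m2 ((abs_of_nonneg hl.1).trans_le hl.2)
    (s1 fun i => s1 fun j => m2 (m2 (h5 i j) (h6 i)) (h6 j))
  have t3 : 1 ≤ 1 + lam * ip X.g (fh X f) (fh X f) x :=
    le_add_of_nonneg_right (mul_nonneg hl.1 (hg.ip_nonneg _ x))
  refine (d2 h4 (((abs_div _ _).trans_le (div_le_self (abs_nonneg _)
    (t3.trans (le_abs_self _)))).trans h7)).trans ?_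
  calc _ = 2 * (1 + n * (n * B)) * ε + 4 * P.L * n ^ 4 * B ^ 2 * σ * (δ * δ * A) +
        n ^ 2 * B * ρ * δ + P.L * n ^ 4 * (B * (B + 1)) ^ 2 * (σ + ρ) * (δ * δ * A) := by ring
    _ ≤ 2 * (1 + n * (n * B)) * ε + 4 * P.L * n ^ 4 * B ^ 2 * σ * ε +
        n ^ 2 * B * ρ * ε + P.L * n ^ 4 * (B * (B + 1)) ^ 2 * (σ + ρ) * ε := by gcongr
    _ = Q * ε := by rw [hQ]; ring
    _ ≤ e := (le_div_iff₀' Q0).1 (hε.trans (min_le_right _ _))

end Vale.Agent.P366Y.D
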