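import Vale.Agent.P366Y.D.Defs
import Vale.Agent.P366Y.J.Ga
import Vale.Agent.P366Y.J.Alg

/-!
# P366Y, block D, row GAU: the defect of the gauge
-/

open MeasureTheory Metric Filter Topology Set
open scoped ContDiff ENNReal
open Vale.Agent.P366.Stmt Vale.Agent.P366Z
open Vale.Agent.P366Y.C (ex er gt ww b2)
open Vale.Agent.P366Y.J (io Jk Cx am)

noncomputable section

namespace Vale.Agent.P366Y.D

namespace GauX

theorem sc {φ φ₀ y t o W : ℝ} (h0 : 0 < φ₀) (h1 : φ₀ ≤ φ) (h2 : φ ≤ y) (ht : 0 ≤ t) (ho : 0 < o)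
    (o1 : 1 / 4 + t ≤ o ^ 2) (o2 : o ^ 2 ≤ 1 / y ^ 2 + t) (hW : 0 < W)
    (W2 : W ^ 2 = 1 + φ ^ 2 * t) : 0 ≤ 1 - φ * o / W ∧ (1 - φ * o / W) * (1 + φ ^ 2 * t) ≤ 1 ∧
      (o ^ 2 = 1 / y ^ 2 + t → (1 - φ * o / W) * φ₀ ≤ 2 * (y - φ)) := by
  have p0 := h0.trans_le h1
  have y0 := p0.trans_le h2
  obtain ⟨s, hs⟩ : ∃ s, φ = s * y := ⟨φ / y, (div_mul_cancel₀ _ y0.ne').symm⟩
  have s0 : 0 < s := pos_of_mul_pos_left (hs ▸ p0) y0.le
  have s1 : s ≤ 1 := le_of_mul_le_mul_right (by linarith) y0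
  have e : φ ^ 2 * (1 / y ^ 2) = s ^ 2 := by rw [hs]; field_simp
  obtain ⟨r, hr⟩ : ∃ r, φ * o / W = r := ⟨_, rfl⟩
  have r0 : 0 ≤ r := hr ▸ by positivity
  have r2 : r ^ 2 * W ^ 2 = φ ^ 2 * o ^ 2 := by rw [← hr]; field_simp
  have a1 : φ ^ 2 * o ^ 2 ≤ s ^ 2 + φ ^ 2 * t := by
    rw [← e, ← mul_add]; gcongr
  have a2 : φ ^ 2 * t ≤ φ ^ 2 * o ^ 2 := by gcongr; linarith
  have s2 : s ^ 2 ≤ 1 := pow_le_one₀ s0.le s1
  have r1 : r ≤ 1 := (sq_le_one_iff₀ r0).1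
    (le_of_mul_le_mul_right (by linarith) (pow_pos hW 2))
  have a3 : (1 - r) * W ^ 2 ≤ (1 - r ^ 2) * W ^ 2 := by gcongr; nlinarith
  rw [hr, ← W2]
  refine ⟨by linarith, by linarith, fun k => ?_⟩
  have a4 : (1 - r) * 1 ≤ (1 - r) * W ^ 2 :=
    mul_le_mul_of_nonneg_left (by rw [W2]; nlinarith [mul_nonneg (sq_nonneg φ) ht]) (by linarith)
  rw [k, mul_add, e] at r2
  have a5 : 1 - r ≤ 2 * (1 - s) := by nlinarith [sq_nonneg (1 - s)]
  calc (1 - r) * φ₀ ≤ 2 * (1 - s) * y := mul_le_mul a5 (h1.trans h2) h0.le (by linarith)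
    _ = _ := by rw [hs]; ring

theorem low {P : Pa} {y t : ℝ} (hP : P.Ok) (y0 : 0 < y) (ht : 0 ≤ t) (h : t ≤ P.M₀ ^ 2) :
    P.Gs y t = P.L * y ^ 2 / (1 + P.L * y ^ 2 * t) ∧ P.om y t ^ 2 = 1 / y ^ 2 + t := by
  obtain ⟨-, hL, -, -, -, hM, -⟩ := hP.pos
  have k : 1 ≤ 2 - t / P.M₀ ^ 2 := by linarith [(div_le_one (by positivity)).2 h]
  have e1 : P.th t = 1 := Real.smoothTransition.one_of_one_le k
  have e2 : P.Gs y t = J.GaH.F P y t := (J.GaH.der (by positivity) (by positivity)).deriv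
  refine ⟨?_, ?_⟩
  · rw [e2, J.GaH.F, J.GaH.td, J.GaH.sd_hi k, e1]
    ring
  · rw [Pa.om, e1, Real.sq_sqrt (by positivity)]
    ring

theorem gt_eq {n : ℕ} (g T : Field n) (f : E n → ℝ) (x : E n) {l c : ℝ}
    (h : l / (1 + l * ip g f f x) = c) : gt g T f l x = pr2 (am g x c (D1 f x)) (T x) := by
  rw [gt, mul_div_right_comm, h]
  simp only [pr2, am, tr, b2, sub_mul, Finset.sum_sub_distrib, Finset.mul_sum]
  refine congrArg _ (Finset.sum_congr rfl fun i _ => Finset.sum_congr rfl fun j _ => ?_)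
  show c * (T x i j * gr g f i x * gr g f j x) = c * gr g f i x * gr g f j x * T x i j
  ring

end GauX

open GauX

/-- **GAU** -/
theorem gau : GAU := by
  obtain ⟨C, C1, hG⟩ := J.ga
  refine ⟨24 * C, fun n X P hC M θ K₀ ε A K ψ f φ x hJ hx p1 p2 p3 => ?_⟩
  have hP := hC.hP
  obtain ⟨l1, hL, τ0, τ1, -, hM, -, -, hK⟩ := hP.pos
  obtain ⟨φ0, φ1⟩ := hP.φ0
  have t0 : 0 ≤ ip X.g f f x := (J.alg n X.g x 0 (D1 f x) (J.mg hC.hX) le_rfl (by simp)).1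
  have ga := hG P hP (J.big_mono hP hC.big (by linarith)) (ψ x) ⟨p1.trans p2, p3⟩ _ t0
  have y0 : 0 < ψ x := φ0.trans_le (p1.trans p2)
  have b1 : 0 < 1 + 4 * P.L * ip X.g f f x := by positivity
  have i0 : 0 < io P (ψ x) (ip X.g f f x) := lt_of_lt_of_le (by positivity) ga.io1
  have e1 : 1 + li X P ψ f x * ip X.g f f x = (io P (ψ x) (ip X.g f f x))⁻¹ := by
    rw [li]
    field_simp
    rw [io]
    ring
  have e2 : ip X.g f f x ≤ P.M₀ ^ 2 → li X P ψ f x = P.L * ψ x ^ 2 := fun h => by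
    have : 0 < 1 + P.L * ψ x ^ 2 * ip X.g f f x := by positivity
    rw [li, div_eq_iff i0.ne', io, (low hP y0 t0 h).1]
    field_simp
    ring
  have e3 : li X P ψ f x / (1 + li X P ψ f x * ip X.g f f x) = P.Gs (ψ x) (ip X.g f f x) := by
    rw [e1, div_inv_eq_mul, li, div_mul_cancel₀ _ i0.ne']
  have e4 : ∀ T, gt X.g T f (li X P ψ f x) x = pr2 (ag X P ψ x (D1 f x)) (T x) := fun T => by
    rw [gt_eq _ _ _ _ e3, J.ag_eq, J.rc_one (by linarith [hC.hX.R1]) hx, one_mul]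
    rfl
  have b2 := hC.big.b1
  have b3 : φ x ^ 2 ≤ ψ x ^ 2 := pow_le_pow_left₀ (φ0.le.trans p1) p2 2
  have W0 : 0 < ww X.g φ f x := Real.sqrt_pos.2 (by positivity)
  obtain ⟨q1, q2, q3⟩ := sc φ0 p1 p2 t0 ga.om0 ga.om1 ga.om2 W0 (Real.sq_sqrt (by positivity))
  refine ⟨le_trans (mul_le_mul_of_nonneg_left b3 (by positivity)) ?_, e1, ?_, e2, ?_, _, q1, q2,
    fun h => q3 (low hP y0 t0 h).2, ?_⟩
  · rcases le_total (ip X.g f f x) (P.M₀ ^ 2) with h | h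
    · rw [e2 h]
      exact mul_le_mul_of_nonneg_right (by nlinarith) (sq_nonneg _)
    have t1 : 0 < ip X.g f f x := lt_of_lt_of_le (by positivity) h
    have big : 24 * C * P.L ≤ P.L * ψ x ^ 2 * ip X.g f f x := by
      refine hC.big.b3.trans ?_
      calc P.η * P.τ * P.φ₀ ^ 4 * P.M₀ ≤ 1 * P.L * P.φ₀ ^ 2 * P.M₀ ^ 2 := by
            have e1 : P.φ₀ ^ 4 ≤ P.φ₀ ^ 2 := pow_le_pow_of_le_one φ0.le φ1 (by norm_num)
            have e2 : P.M₀ ≤ P.M₀ ^ 2 := le_self_pow₀ hM two_ne_zero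
            have e3 : P.η ≤ 1 := by linarith only [hP.η0.2]
            have e4 := τ1.trans hL
            exact mul_le_mul (mul_le_mul (by gcongr) e1 (by positivity) (by positivity)) e2
              (by positivity) (by positivity)
        _ ≤ _ := by
            rw [one_mul]
            have := p1.trans p2
            gcongr
    have k1 : 1 + P.L * ψ x ^ 2 * ip X.g f f x ≤ C * (1 + li X P ψ f x * ip X.g f f x) := by
      rw [e1, ← div_eq_mul_inv, le_div_iff₀ i0, mul_comm]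
      exact ga.io2
    have k2 : 24 * C * P.lam * ψ x ^ 2 * ip X.g f f x ≤ P.L * ψ x ^ 2 * ip X.g f f x := by gcongr
    have k3 : 24 * C ≤ 24 * C * P.L := le_mul_of_one_le_right (by positivity) hL
    refine le_of_mul_le_mul_right (a := C * ip X.g f f x) ?_ (by positivity)
    linarith
  · rw [e1, inv_le_comm₀ i0 b1, ← one_div]
    exact ga.io1
  · rw [gt_eq _ _ _ _ e3]
    refine abs_le_of_sq_le_sq ?_ (by linarith)
    refine ((J.alg n X.g x _ (D1 f x) (J.mg hC.hX) ga.Gs0 ?_).2.2.2.2.2 X.K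
      (hC.hX.syK x)).1.trans (hC.fo.2 x)
    show _ * ip X.g f f x ≤ 1
    rw [io] at i0
    linarith
  · rw [er, e4, e4, hJ.eqn x hx, cp]
    ring

end Vale.Agent.P366Y.D
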