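import Vale.Agent.P366Y.D.Defs

/-!
# P366Y, block D: the terms that do not depend on `u`
-/

open MeasureTheory Metric Filter Topology Set
open scoped ContDiff ENNReal
open Vale.Agent.P366.Stmt Vale.Agent.P366Z
open Vale.Agent.P366Y.J (Jk Cx mg rc_mem rc_one sm_rc)

set_option linter.all false

noncomputable section

namespace Vale.Agent.P366Y.D

namespace GeoH

variable {n : ℕ}

/-- the weight -/
def wq (X : Dat n) (P : Pa) (y : E n) : ℝ :=
  rc (X.R + 3) y * X.p y + (1 - rc (X.R + 3) y) * P.p₁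

theorem sm_wq {X : Dat n} (hX : X.Ok) (P : Pa) : Smooth (wq X P) :=
  (ContDiff.mul (sm_rc _) hX.smp).add ((contDiff_const.sub (sm_rc _)).mul contDiff_const)

theorem atan (z : ℝ) : |Real.arctan z| ≤ 2 :=
  abs_le.2 ⟨by linarith [Real.neg_pi_div_two_lt_arctan z, Real.pi_le_four],
    by linarith [Real.arctan_lt_pi_div_two z, Real.pi_le_four]⟩

theorem ip_cp {X : Dat n} {P : Pa} (hX : X.Ok) (hP : P.Ok) (A : ℝ) {f : E n → ℝ} (hf : Smooth f)
    (x : E n) : ip X.g (cp X P A f) f x =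
      (deriv P.T₁ (f x) + wq X P x * (1 / (1 + (f x / (1 / A ^ 2)) ^ 2) * (1 / (1 / A ^ 2)))) *
        ip X.g f f x + Real.arctan (f x / (1 / A ^ 2)) * ip X.g (wq X P) f x := by
  refine ip_of_pd_add fun i => ?_
  have h1 := (hP.smT.differentiable (by simp) (f x)).hasDerivAt
  have h2 : HasDerivAt (fun z => Real.arctan (z / (1 / A ^ 2)))
      (1 / (1 + (f x / (1 / A ^ 2)) ^ 2) * (1 / (1 / A ^ 2))) (f x) :=
    ((hasDerivAt_id' (f x)).div_const (1 / A ^ 2)).arctan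
  have d1 := h1.differentiableAt.comp x (hf.diff x)
  have d2 := h2.differentiableAt.comp x (hf.diff x)
  have k1 := pd_add d1 (((sm_wq hX P).diff x).mul d2) i
  have k2 := pd_mul ((sm_wq hX P).diff x) d2 i
  have k3 := pd_comp h1 (hf.diff x) i
  have k4 := pd_comp h2 (hf.diff x) i
  refine k1.trans ?_
  refine (congrArg₂ (· + ·) k3 (k2.trans (by
    rw [show pd i ((fun z => Real.arctan (z / (1 / A ^ 2))) ∘ f) x = _ from k4]))).trans ?_
  simp only [Function.comp_apply]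
  ring

theorem mom_le {g : Field n} (hg : Met g) (w : Fin n → E n → ℝ) (f : E n → ℝ) (x : E n) :
    ∑ j, w j x * gr g f j x ≤ covNorm g w x * gn g f x := by
  have k := hg.up_cs x (fun j => w j x) fun j => pd j f x
  have e : ∑ j, w j x * gr g f j x = ∑ i, ∑ j, up g i j x * w i x * pd j f x := by
    simp only [gr, Finset.mul_sum]
    exact Finset.sum_congr rfl fun i _ => Finset.sum_congr rfl fun j _ => by ring
  rw [e, covNorm, gn, ← Real.sqrt_mul (hg.up_nonneg x _)]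
  exact Real.le_sqrt_of_sq_le k

theorem low {τ d m t r a I q G J S : ℝ} (h1 : τ ≤ d) (t0 : 0 ≤ t) (r0 : 0 ≤ r) (ha : |a| ≤ 2)
    (hq : |q| ≤ G * r) (hI : I = (d + m) * t + a * q) (hS : S ≤ J * r) :
    τ * t + m * t - (2 * G + J) * r ≤ I - S := by
  have k1 : |a * q| ≤ 2 * (G * r) := by
    rw [abs_mul]
    exact mul_le_mul ha hq (abs_nonneg _) zero_le_two
  have k2 := mul_le_mul_of_nonneg_right h1 t0
  rw [hI]
  linarith [(abs_le.1 k1).1]

theorem z1 {φ W r s τ m G Y I : ℝ} (φ0 : 0 < φ) (W0 : 0 < W) (hW : W ^ 2 = 1 + φ ^ 2 * r ^ 2)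
    (r0 : 0 ≤ r) (G0 : 0 ≤ G) (m0 : 0 ≤ m) (hI : τ * r ^ 2 + m * r ^ 2 - G * r ≤ I)
    (hY : s / 2 + 2 * G ≤ Y) : φ * W * (s / 2) + 2 * τ * φ ^ 2 * r ^ 2 ≤ φ * W * Y + 2 * φ ^ 2 * I := by
  have k1 : φ * r ≤ W := abs_le_of_sq_le_sq' (by rw [hW, mul_pow]; linarith) W0.le |>.2
  have k2 := mul_le_mul_of_nonneg_left hY (mul_pos φ0 W0).le
  have k3 := mul_le_mul_of_nonneg_left hI (by positivity : 0 ≤ 2 * φ ^ 2)
  have k4 := mul_le_mul_of_nonneg_left k1 (by positivity : 0 ≤ 2 * φ * G)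
  have k5 : 0 ≤ 2 * φ ^ 2 * (m * r ^ 2) := by positivity
  nlinarith

theorem z2 {φ W r s τ m G Y I : ℝ} (φ0 : 0 < φ) (φ2 : φ ≤ 2) (W0 : 0 < W)
    (hW : W ^ 2 = 1 + φ ^ 2 * r ^ 2) (s0 : 0 < s) (m0 : 0 < m) (hG : 2 * G ^ 2 ≤ m * s)
    (hI : τ * r ^ 2 + m * r ^ 2 - G * r ≤ I) (hY : s ≤ Y) :
    φ * W * (s / 2) + 2 * τ * φ ^ 2 * r ^ 2 ≤ φ * W * Y + 2 * φ ^ 2 * I := by
  have k1 : 1 ≤ W := abs_le_of_sq_le_sq' (by rw [hW]; nlinarith [sq_nonneg (φ * r)]) W0.le |>.2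
  have k2 := mul_le_mul_of_nonneg_left hY (mul_pos φ0 W0).le
  have k3 := mul_le_mul_of_nonneg_left hI (by positivity : 0 ≤ 2 * φ ^ 2)
  have k4 : G * r ≤ m * r ^ 2 + s / 8 := by
    refine le_of_mul_le_mul_left ?_ m0
    nlinarith [sq_nonneg (m * r - G / 2)]
  have k5 := mul_le_mul_of_nonneg_left k4 (by positivity : 0 ≤ 2 * φ ^ 2)
  have k6 : φ * s * φ ≤ φ * s * (2 * W) := mul_le_mul_of_nonneg_left (by linarith) (by positivity)
  nlinarith

theorem y1 {s B μ T k g J : ℝ} (s1 : s ≤ 1) (hμ : |μ| ≤ B) (hk : |k| ≤ B) (hg : g ≤ B)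
    (hJ : J ≤ B) : s / 2 + 2 * (2 * g + J) ≤ 2 * μ + T ^ 2 + 2 * T * k + (B + 4) ^ 2 * 1 := by
  have k1 := sq_le_sq' (abs_le.1 hk).1 (abs_le.1 hk).2
  nlinarith [(abs_le.1 hμ).1, sq_nonneg (T + k)]

theorem y2 {s B μ T k g J p c D : ℝ} (hk : |k| ≤ B) (hT : |T| ≤ c + 2 * p) (c0 : 0 ≤ c)
    (hc : 4 * B * c ≤ s) (s0 : 0 < s) (D0 : 0 ≤ D)
    (h : 2 * J + 4 * g + min (k ^ 2) (4 * p * |k|) + s ≤ 2 * μ) :
    s / 2 + 2 * (2 * g + J) ≤ 2 * μ + T ^ 2 + 2 * T * k + D := by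
  have k1 : -(|T| * |k|) ≤ T * k := by rw [← abs_mul]; exact neg_abs_le _
  have k2 := mul_le_mul_of_nonneg_right hT (abs_nonneg k)
  have k3 := mul_le_mul_of_nonneg_left hk c0
  rcases min_choice (k ^ 2) (4 * p * |k|) with e | e <;> rw [e] at h
  · nlinarith [sq_nonneg (T + k)]
  · nlinarith [sq_nonneg T]

theorem sig {A z : ℝ} (A1 : 1 ≤ A) (h : |z| ≤ 1 / A ^ 2) :
    A / 2 ≤ 1 / (1 + (z / (1 / A ^ 2)) ^ 2) * (1 / (1 / A ^ 2)) := by
  have s0 : 0 < 1 / A ^ 2 := by positivity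
  have k1 : (z / (1 / A ^ 2)) ^ 2 ≤ 1 := by
    rw [sq_le_one_iff_abs_le_one, abs_div, abs_of_pos s0]
    exact (div_le_one s0).2 h
  have k2 : 1 / 2 ≤ 1 / (1 + (z / (1 / A ^ 2)) ^ 2) :=
    one_div_le_one_div_of_le (by positivity) (by linarith)
  rw [one_div_one_div]
  nlinarith

end GeoH

open GeoH in
/-- **GEO** -/
theorem geo : GEO := by
  intro n s₁ B
  refine ⟨4 * B / s₁, (B + 4) ^ 2, sq_nonneg _, fun X P hC hB => ?_⟩
  have hX := hC.hX
  have hP := hC.hP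
  have hg := mg hX
  have R1 := hX.R1
  have Rρ := hX.Rρ
  obtain ⟨s0, s1⟩ := hB.s0
  obtain ⟨-, -, p3, -, p5, -, p7, -⟩ := hP.pos
  obtain ⟨D, hD⟩ := (isCompact_closedBall (0 : E n) (X.R + 5)).bddAbove_image
    (hg.sm_ip (sm_wq hX P) (sm_wq hX P)).cont.sqrt.continuousOn
  refine ⟨max 1 (4 * (2 * D + B) ^ 2 / (P.p₁ * s₁)), fun A hA M θ K₀ ε K ψ f hf x hx φ W φ0 φ2 W0
    hW => ?_⟩
  have A1 : 1 ≤ A := (le_max_left _ _).trans hA
  have A2 : 4 * (2 * D + B) ^ 2 ≤ A * (P.p₁ * s₁) :=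
    (div_le_iff₀ (by positivity)).1 ((le_max_right _ _).trans hA)
  have r := rc_mem (X.R + 3) x
  have q0 : 0 ≤ wq X P x := add_nonneg (mul_nonneg r.1 (hX.pb x).1)
    (mul_nonneg (sub_nonneg.2 r.2) p7.le)
  have hI := low (hP.Td (f x)) (hg.ip_nonneg f x) (gn_nonneg X.g f x) (atan _)
    (hg.abs_ip_le (wq X P) f x) (ip_cp hX hP A hf.sm x) (mom_le hg (mom X.g X.K) f x)
  rw [← hg.gn_sq f x] at hI hW ⊢
  obtain ⟨b1, b2, b3, -⟩ := hB.bd x (by linarith)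
  have J0 : 0 ≤ covNorm X.g (mom X.g X.K) x := Real.sqrt_nonneg _
  have d0 : 0 ≤ (B + 4) ^ 2 * dz P (f x) :=
    mul_nonneg (sq_nonneg _) (Real.smoothTransition.nonneg _)
  rcases le_total ‖x‖ (X.R + 2) with k | k
  · have e1 : wq X P =ᶠ[𝓝 x] X.p := by
      filter_upwards [(isOpen_lt continuous_norm continuous_const).mem_nhds
        (show ‖x‖ < X.R + 3 by linarith)] with y hy
      rw [GeoH.wq, rc_one (by linarith) (le_of_lt hy)]; ring
    rw [gn_congr e1] at hI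
    refine z1 φ0 W0 hW (gn_nonneg _ _ _) (by linarith [gn_nonneg X.g X.p x])
      (mul_nonneg q0 (by positivity)) hI ?_
    rcases le_or_gt P.F₀ |f x| with k' | k'
    · have e2 : dz P (f x) = 1 := Real.smoothTransition.one_of_one_le (by
        have := pow_le_pow_left₀ (by linarith) k' 2
        rw [sq_abs] at this
        rw [le_sub_iff_add_le, le_div_iff₀ (by positivity)]
        nlinarith)
      rw [e2]
      exact y1 s1 b1 (hB.Kb x).2 b3 b2
    · have e2 : 0 ≤ X.F x := le_of_not_ge fun c => by linarith [hf.inn x c, le_abs_self (f x)]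
      refine y2 (c := P.τ * P.F₀) (hB.Kb x).2 ?_ (by positivity) ?_ s0 d0 (hB.dec x e2 k)
      · show |P.T₁ (f x) + wq X P x * Real.arctan (f x / (1 / A ^ 2))| ≤ _
        refine (abs_add_le _ _).trans (add_le_add ?_ ?_)
        · rw [hP.Tl _ (by linarith), abs_mul, abs_of_pos p3]
          exact mul_le_mul_of_nonneg_left k'.le p3.le
        · rw [abs_mul, abs_of_nonneg q0, e1.self_of_nhds, mul_comm 2]
          exact mul_le_mul_of_nonneg_left (atan _) (hX.pb x).1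
      · have := hC.big.b2
        rwa [div_mul_eq_mul_div, div_le_one s0] at this
  · have e1 : P.p₁ ≤ wq X P x := by
      rw [GeoH.wq, (hX.pout x (by linarith)).1]
      linarith [mul_nonneg r.1 (sub_nonneg.2 hC.fo.1)]
    have e2 := sig A1 (hf.out x (by linarith))
    have e3 := mul_le_mul e1 e2 (by linarith) q0
    have e4 : gn X.g (wq X P) x ≤ D := hD ⟨x, mem_closedBall_zero_iff.2 hx, rfl⟩
    have e5 := gn_nonneg X.g (wq X P) x
    have e6 : (2 * gn X.g (wq X P) x + covNorm X.g (mom X.g X.K) x) ^ 2 ≤ (2 * D + B) ^ 2 :=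
      pow_le_pow_left₀ (by linarith) (by linarith) 2
    refine z2 φ0 φ2 W0 hW s0 (lt_of_lt_of_le (by positivity) e3) ?_ hI ?_
    · have := mul_le_mul_of_nonneg_right e3 s0.le
      linarith
    · have := hB.dec' x k (by linarith)
      linarith [sq_nonneg (cp X P A f x + tr X.g X.K x), add_sq (cp X P A f x) (tr X.g X.K x)]

end Vale.Agent.P366Y.D
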