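import Vale.Agent.P366Y.D.Defs

/-!
# P366Y, block D: the estimates inside
-/

open MeasureTheory Metric Filter Topology Set
open scoped ContDiff ENNReal
open Vale.Agent.P366.Stmt Vale.Agent.P366Z
open Vale.Agent.P366Y.C (ex er gt ww b2 Tst)
open Vale.Agent.P366Y.J (io Jk Cx)

noncomputable section

namespace Vale.Agent.P366Y.D

variable {n : ℕ}

namespace GinH

theorem ex_congr {g K : Field n} {φ f f' T T' u : E n → ℝ} {x : E n} (hf : f =ᶠ[𝓝 x] f')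
    (hT : T =ᶠ[𝓝 x] T') (lam Λ : ℝ) : ex g K φ f T u lam Λ x = ex g K φ f' T' u lam Λ x := by
  have p1 := fun i => pd_congr hf i
  have p2 := fun i j => pd_congr (pd_congr_ev hf j) i
  have p3 := fun i => pd_congr hT i
  have p4 := hT.eq_of_nhds
  simp only [ex, er, gt, ww, ip, gr, tr, b2, hess, p1, p2, p3, p4]

theorem cut_ev {r : ℝ} (hr : 0 ≤ r) (f : E n → ℝ) {x : E n} (hx : ‖x‖ < r) :
    (fun y => rc r y * f y) =ᶠ[𝓝 x] f :=
  (continuous_norm.continuousAt.eventually_lt continuousAt_const hx).mono fun y hy => by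
    simp only [J.rc_one hr hy.le, one_mul]

theorem lam0 {P : Pa} (hP : P.Ok) (z : ℝ) :
    4 * P.φ z * (P.φ z + z * deriv P.φ z) ≤ 12 * P.lam * P.φ z ^ 2 := by
  have a := hP.φ0.1.trans_le (hP.φb z).1
  have l := hP.pos.1
  have k : z * deriv P.φ z ≤ 2 * (P.lam * P.φ z) := by
    rcases le_or_gt z 2 with h | h
    · exact mul_le_mul h (hP.φd z).2 (hP.φd z).1 zero_le_two
    · have : P.φ =ᶠ[𝓝 z] fun _ => 2 := (eventually_gt_nhds h).mono fun y hy =>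
        hP.φhi y (by linarith [hP.η0.2])
      rw [this.deriv_eq, deriv_const, mul_zero]; positivity
  have k2 : P.φ z ≤ P.lam * P.φ z := le_mul_of_one_le_left a.le l
  calc _ ≤ 4 * P.φ z * (3 * (P.lam * P.φ z)) := by gcongr; linarith
    _ = _ := by ring

theorem br {p R I e s a β fl A' st A₁ A₂ d : ℝ} (p0 : 0 ≤ p) (s0 : 0 ≤ s) (β0 : 0 ≤ β) (β1 : β ≤ 1)
    (d0 : 0 ≤ d) (d1 : d ≤ 1) (A1 : 0 ≤ A₁) (A2 : A₁ ≤ A₂) (h0 : 0 ≤ A' * st)
    (h : p * (s / 2) + a ≤ p * (R + A₁ * d) + I) :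
    p * (s / 8) + a - p * e - β * (p * (fl + A₁)) ≤
      p * (R - e - (s / 8 + (β * fl - A' * st) - A₂ * d * (1 - β))) + I := by
  have k1 : A₁ * d * (1 - β) ≤ A₂ * d * (1 - β) := by gcongr
  have k2 : A₁ * d * β ≤ A₁ * 1 * β := by gcongr
  have k3 : 0 ≤ p * (s / 4 + A' * st + (A₂ * d * (1 - β) - A₁ * d * (1 - β)) +
      (A₁ * 1 * β - A₁ * d * β)) := mul_nonneg p0 (by linarith)
  linarith

theorem fl_le {cY A₁ D y : ℝ} (h1 : cY ≤ D) (h2 : A₁ ≤ D) (y0 : 0 ≤ y) :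
    cY * (1 + y) + A₁ ≤ D * (2 + y) := by
  have : cY * (1 + y) ≤ D * (1 + y) := by gcongr
  linarith

theorem allS {φ W t G q d D cY A₁ β B L z a s B' u E : ℝ} (φ0 : 0 < φ) (φ2 : φ ≤ 2) (W1 : 1 ≤ W)
    (W2 : W ^ 2 = 1 + φ ^ 2 * t) (t0 : 0 ≤ t) (tB : t ≤ B) (G1 : 1 ≤ G) (L1 : 1 ≤ L)
    (g3 : G ≤ 1 + 4 * L * t) (q0 : 0 ≤ q) (q3 : q ≤ 1) (dD : |d| ≤ D) (z1 : 1 ≤ z) (c0 : 0 ≤ cY)
    (A0 : 0 ≤ A₁) (h1 : cY ≤ D) (h2 : A₁ ≤ D) (β1 : β ≤ 1) (a0 : 0 ≤ a) (s0 : 0 ≤ s)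
    (hB : 2 * (1 + 4 * B) * (2 * (1 + 4 * L * B) * D ^ 2 + D * (3 + 4 * L * B)) ≤ B')
    (k : u ^ 2 * (φ * W * (s / 8) + a - φ * W * (2 * G * (q * d) ^ 2) -
      β * (φ * W * (cY * (1 + G / z) + A₁))) ≤ E) : -(B' * u ^ 2) ≤ E := by
  have B0 := t0.trans tB
  have D0 := A0.trans h2
  have w1 : W ≤ 1 + 4 * B := by
    have : φ ^ 2 * t ≤ 2 ^ 2 * B := by gcongr
    nlinarith
  have gB : G ≤ 1 + 4 * L * B := g3.trans (by gcongr)
  have p1 : φ * W ≤ 2 * (1 + 4 * B) := by gcongr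
  have m1 : φ * W * (2 * G * (q * d) ^ 2) ≤ 2 * (1 + 4 * B) * (2 * (1 + 4 * L * B) * D ^ 2) := by
    have : d ^ 2 ≤ D ^ 2 := sq_le_sq' (abs_le.1 dD).1 (abs_le.1 dD).2
    have : q ^ 2 * d ^ 2 ≤ 1 ^ 2 * D ^ 2 := by gcongr
    have : (q * d) ^ 2 ≤ D ^ 2 := by rw [mul_pow]; linarith
    gcongr
  have m2 : β * (φ * W * (cY * (1 + G / z) + A₁)) ≤
      1 * (2 * (1 + 4 * B) * (D * (3 + 4 * L * B))) := by
    have : G / z ≤ G := div_le_self (by linarith) z1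
    have : cY * (1 + G / z) + A₁ ≤ D * (3 + 4 * L * B) :=
      (fl_le h1 h2 (by positivity)).trans (mul_le_mul_of_nonneg_left (by linarith) D0)
    gcongr
  have s8 : 0 ≤ φ * W * (s / 8) := by positivity
  refine le_trans ?_ k
  rw [neg_le_iff_add_nonneg', mul_comm B', ← mul_add]
  exact mul_nonneg (sq_nonneg _) (by linarith)

theorem cutS {G q T e s L t : ℝ} (q0 : 0 ≤ q) (q3 : q ≤ 1) (hT : |T| ≤ e) (ht : t ≤ e)
    (L1 : 1 ≤ L) (g3 : G ≤ 1 + 4 * L * t) (e2 : 4 * L * e ≤ 1) (e3 : e ≤ s / 32) :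
    G ≤ 2 ∧ 2 * G * (q * T) ^ 2 ≤ s / 8 := by
  have e0 := (abs_nonneg T).trans hT
  have G2 : G ≤ 2 := g3.trans (by
    have : 4 * L * t ≤ 4 * L * e := by gcongr
    linarith)
  have c5 : (q * T) ^ 2 ≤ e := by
    rw [mul_pow]
    have : T ^ 2 ≤ e ^ 2 := sq_le_sq' (abs_le.1 hT).1 (abs_le.1 hT).2
    have : q ^ 2 * T ^ 2 ≤ 1 ^ 2 * e ^ 2 := by gcongr
    nlinarith
  have : 2 * G * (q * T) ^ 2 ≤ 2 * 2 * e := by gcongr
  exact ⟨G2, by linarith⟩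

theorem finS {u c X E : ℝ} (u0 : 0 < u) (u1 : u ≤ 1) (c0 : 0 ≤ c) (h : -c ≤ X)
    (k : u ^ 2 * X ≤ E) : -c ≤ E := by
  have : u ^ 2 * c ≤ 1 * c := by gcongr; exact pow_le_one₀ u0.le u1
  have := mul_le_mul_of_nonneg_left h (sq_nonneg u)
  linarith

end GinH

open GinH

theorem gin_of (hC : CPB) (hG : GEO) (hA : GAU) (h1 : CUT1) (hH : HB) (hS : SCA) : GIN := by
  intro n s₁ B
  obtain ⟨Cg, A₁, A1, hG⟩ := hG n s₁ B
  obtain ⟨Ca, hA⟩ := hA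
  refine ⟨A₁, A1, fun CK A₂ cY e hA₂ cY0 e0 => ?_⟩
  by_cases s0 : 0 < s₁
  swap
  · exact ⟨0, fun X P hB => absurd hB.s0.1 s0⟩
  obtain ⟨D, D1, D2, D3, D4⟩ : ∃ D : ℝ, 1 ≤ D ∧ 3 * CK + 2 * B ≤ D ∧ A₁ ≤ D ∧ cY ≤ D :=
    ⟨max (max 1 (3 * CK + 2 * B)) (max A₁ cY), by simp, by simp, by simp, by simp⟩
  obtain ⟨Cs, hS⟩ := hS s₁ D e s0 D1 e0
  refine ⟨max Cg (max Ca Cs), fun X P hB hX hCK M K₀ => ?_⟩
  have hP := hX.hP
  have mg := J.mg hX.hX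
  obtain ⟨A₀, hG⟩ := hG X P (hX.mono (by simp)) hB
  obtain ⟨h₀, h0, hφ, hS⟩ := hS P hP (J.big_mono hP hX.big (by simp))
  obtain ⟨B', B1, hH⟩ := hH n X P s₁ B M K₀ hX.hX hP hB
  obtain ⟨-, L1, τ0, -⟩ := hP.pos
  obtain ⟨e', e1, e2, e3⟩ : ∃ e' > (0 : ℝ), 4 * P.L * e' ≤ 1 ∧ e' ≤ s₁ / 32 :=
    ⟨min (1 / (4 * P.L)) (s₁ / 32), by positivity, by
      rw [← le_div_iff₀' (by positivity)]; exact min_le_left _ _, min_le_right _ _⟩
  obtain ⟨ε₀, ε0, h1⟩ := h1 n X P s₁ B e' hX.hX hP hB e1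
  refine ⟨h₀, h0, 2 * (1 + 4 * B') * (2 * (1 + 4 * P.L * B') * D ^ 2 + D * (3 + 4 * P.L * B')),
    ε₀, ε0, max A₀ 1, fun h hh B'' hB'' ε hε A hA' θ K um A' A'0 ψ f u hs x hx => ?_⟩
  replace hx : ‖x‖ < X.R + 5 := hx
  have R1 := hX.hX.R1
  have Rρ := hX.hX.Rρ
  have u0 : 0 < u x := by linarith [hs.lo x, hP.η0.2]
  obtain ⟨φ1, φ2⟩ := hP.φb (u x)
  have φ0 := hP.φ0.1.trans_le φ1
  have t0 := mg.ip_nonneg f x
  have tB := ((hH A (le_of_max_le_right hA') θ ε K ψ f hs.jk).2 x).1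
  obtain ⟨g1, g2, g3, g4, g5, q, q0, q1, q2, g6⟩ := hA n X P (hX.mono (by simp)) M θ K₀ ε A K ψ f
    (fun y => P.φ (u y)) x hs.jk (by linarith) φ1 (hs.ge x) (hs.ps.bd x).2
  have c1 := ((hC n X P s₁ B A f hX.hX hP hB hs.jk.sm hs.jk.sup).2.2 x).1
  have W2 : ww X.g (fun y => P.φ (u y)) f x ^ 2 = 1 + P.φ (u x) ^ 2 * ip X.g f f x :=
    Real.sq_sqrt (by positivity)
  have W1 : 1 ≤ ww X.g (fun y => P.φ (u y)) f x := Real.one_le_sqrt.2 (le_add_of_nonneg_right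
    (by positivity))
  have ge := hG A (le_of_max_le_left hA') M θ K₀ ε K ψ f hs.jk x hx.le _ _ φ0 φ2 (by linarith) W2
  have ef : fh X f =ᶠ[𝓝 x] f := cut_ev (by linarith) f hx
  have eT : Tt X P A f =ᶠ[𝓝 x] cp X P A f := cut_ev (by linarith) _ hx
  have el : lm X P ψ f x = li X P ψ f x := if_pos hx
  have li0 : 0 ≤ li X P ψ f x := le_trans (by have := hP.pos.1; positivity) g1
  have eL : Lam X P ⟨s₁ / 8, A₂, cY, um, A'⟩ ψ (fh X f) x (u x) = s₁ / 8 + (P.βf (u x) *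
      (cY * (1 + (1 + li X P ψ f x * ip X.g f f x) / (1 + P.φ₀ ^ 2 * ip X.g f f x))) -
      A' * Real.smoothTransition (u x - um)) - A₂ * dz P (f x) * (1 - P.βf (u x)) := by
    simp only [Lam, flo, dz, ip_congr ef ef, ef.eq_of_nhds, g2, io,
      J.rc_one (r := X.R + 7) (by linarith) (x := x) (by linarith),
      J.rc_one (r := X.R + 6) (by linarith) (x := x) (by linarith),
      J.rc_one (r := X.ρ) (by linarith) (x := x) (by linarith), one_mul, sub_self, zero_mul,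
      add_zero, mul_inv, div_eq_mul_inv, mul_comm (P.Gs _ _)]
  have β0 := (hP.βb (u x)).1
  have β1 := (hP.βb (u x)).2
  have k := br (e := 2 * (1 + li X P ψ f x * ip X.g f f x) *
      (q * (gt X.g X.K f (li X P ψ f x) x + cp X P A f x)) ^ 2)
    (fl := cY * (1 + (1 + li X P ψ f x * ip X.g f f x) / (1 + P.φ₀ ^ 2 * ip X.g f f x)))
    (by positivity) s0.le β0 β1 (Real.smoothTransition.nonneg _) (Real.smoothTransition.le_one _)
    A1 hA₂ (mul_nonneg A'0 (Real.smoothTransition.nonneg (u x - um))) ge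
  have k2 := (mul_le_mul_of_nonneg_left k (sq_nonneg (u x))).trans_eq
    (c := exs X P ⟨s₁ / 8, A₂, cY, um, A'⟩ A ψ f u x) (by
      rw [exs, ex_congr ef eT, el, eL, ex, g6, dz]; ring)
  have c2 := (h1 ε hε A (le_of_max_le_right hA') M θ K₀ K ψ f hs.jk x).1
  have g7 : X.R + 4 ≤ ‖x‖ → gt X.g X.K f (li X P ψ f x) x = 0 := fun h4 => by
    simp [gt, tr, b2, hX.hX.K0 x (by linarith)]
  have G1 : 1 ≤ 1 + li X P ψ f x * ip X.g f f x := le_add_of_nonneg_right (by positivity)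
  have g8 : ip X.g f f x ≤ P.M₀ ^ 2 → 1 + li X P ψ f x * ip X.g f f x =
      1 + P.L * ψ x ^ 2 * ip X.g f f x := fun h => by rw [g4 h]
  have dD : |gt X.g X.K f (li X P ψ f x) x + cp X P A f x| ≤ D :=
    (abs_add_le _ _).trans (by linarith)
  have ψ0 : 0 ≤ ψ x := φ0.le.trans (hs.ge x)
  refine ⟨el ▸ (lam0 hP _).trans g1, ?_⟩
  clear k ge eL g1 g2 g4 g5 g6 hG hH h1 hA el li0 c1
  generalize exs X P _ A ψ f u x = E at *
  generalize ww X.g _ f x = W at *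
  generalize 1 + li X P ψ f x * ip X.g f f x = G at *
  generalize gt X.g X.K f _ x = k at *
  generalize cp X P A f x = T at *
  generalize ip X.g f f x = t at *
  have q3 : q ≤ 1 := le_trans (le_mul_of_one_le_right q0 (le_add_of_nonneg_right (by positivity))) q1
  have a0 : 0 ≤ P.τ * P.φ (u x) ^ 2 * t := by positivity
  refine ⟨allS φ0 φ2 W1 W2 t0 tB G1 L1 g3 q0 q3 dD (le_add_of_nonneg_right (by positivity)) cY0 A1
    D4 D3 β1 (by positivity) s0.le hB'' k2, fun hg => ?_⟩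
  have W0 : 0 < W := one_pos.trans_le W1
  have G0 : 0 ≤ G := zero_le_one.trans G1
  obtain ⟨s1, s2⟩ := hS (P.φ (u x)) W t G φ1 φ2 t0 W0 W2 G0 g3
  have c3 := fun h4 : X.R + 4 ≤ ‖x‖ => cutS q0 q3 (c2 h4 (by linarith only [hx])).1
    (c2 h4 (by linarith only [hx])).2 L1 g3 e2 e3
  have m1 : P.φ (u x) * W * (2 * G * (q * (k + T)) ^ 2) ≤
      P.φ (u x) * W * (s₁ / 8) + P.τ * P.φ (u x) ^ 2 * t := by
    rcases le_total ‖x‖ (X.R + 4) with h4 | h4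
    · refine le_trans ?_ (s1 q q0 (W2 ▸ q1) fun h => (q2 h).trans (by linarith only [hg h4, hh]))
      have := sq_le_sq' (abs_le.1 dD).1 (abs_le.1 dD).2
      rw [mul_pow, mul_pow]
      gcongr
    · rw [g7 h4, zero_add]
      exact le_add_of_le_of_nonneg (mul_le_mul_of_nonneg_left (c3 h4).2 (by positivity)) a0
  have η0 := hP.η0.1
  rw [indicator_of_mem (mem_closedBall_zero_iff.2 (by linarith only [hx, Rρ]))]
  rcases le_or_gt (1 - P.η) (u x) with h | h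
  · rw [hP.β0 _ h] at k2
    exact le_trans (neg_nonpos.2 (by positivity))
      ((mul_nonneg (sq_nonneg _) (by linarith only [m1, a0])).trans k2)
  · have e0 := hP.φlo _ h.le
    have m2 := s2 e0 fun ht => by
      have w : 1 ≤ W ^ 2 := one_le_pow₀ W1
      rcases le_total ‖x‖ (X.R + 4) with h4 | h4
      · have : ψ x ^ 2 ≤ (2 * P.φ (u x)) ^ 2 := by gcongr; linarith only [hg h4, hh, hφ, φ1]
        have : P.L * ψ x ^ 2 * t ≤ P.L * (2 * P.φ (u x)) ^ 2 * t := by gcongr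
        rw [g8 ht, W2]; linarith only [this, L1]
      · have : 1 * 1 ≤ P.L * W ^ 2 := by gcongr
        linarith only [this, (c3 h4).1]
    have m3 : P.βf (u x) * (P.φ (u x) * W * (cY * (1 + G / (1 + P.φ₀ ^ 2 * t)) + A₁)) ≤
        1 * (P.φ (u x) * W * (D * (2 + G / W ^ 2))) := by
      rw [W2, ← e0]
      have := fl_le (y := G / (1 + P.φ (u x) ^ 2 * t)) D4 D3 (by positivity)
      gcongr
    exact finS u0 (by linarith only [h, η0]) (by positivity) (by linarith only [m1, m2, m3]) k2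

end Vale.Agent.P366Y.D
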