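import Vale.Agent.P366Y.D.Defs
import Vale.Agent.P366Y.J.Ga

/-!
# P366Y, block D: the pointwise estimates in the zone of the cut and outside
-/

open MeasureTheory Metric Filter Topology Set
open scoped ContDiff ENNReal
open Vale.Agent.P366.Stmt Vale.Agent.P366Z
open Vale.Agent.P366Y.C (ex er gt ww b2 Tst)
open Vale.Agent.P366Y.J (io Jk Cx)

noncomputable section

namespace Vale.Agent.P366Y.D

namespace Gout

variable {n : ℕ}

theorem it1 {P : Pa} (hP : P.Ok) (hb : P.Big 48) {z : ℝ} (hz : 0 ≤ z) :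
    4 * P.φ z * (P.φ z + z * deriv P.φ z) ≤ P.L := by
  obtain ⟨a0, a1⟩ := hP.φb z
  obtain ⟨d0, d1⟩ := hP.φd z
  have p0 := hP.φ0.1
  have l1 := hP.pos.1
  have h : z * deriv P.φ z ≤ 2 * (P.lam * 2) := by
    rcases le_or_gt z 2 with h | h
    · exact mul_le_mul h (d1.trans (by gcongr)) d0 zero_le_two
    · have e : P.φ =ᶠ[𝓝 z] fun _ => 2 :=
        (lt_mem_nhds h).mono fun y hy => hP.φhi y (by linarith [hP.η0.2])
      rw [e.deriv_eq, deriv_const]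
      linarith
  have h2 : P.φ z * (P.φ z + z * deriv P.φ z) ≤ 2 * (2 + 2 * (P.lam * 2)) :=
    mul_le_mul a1 (add_le_add a1 h) (add_nonneg (by linarith) (mul_nonneg hz d0)) zero_le_two
  linarith [hb.b1]

theorem ev_lt {r : ℝ} {x : E n} (h : r < ‖x‖) : ∀ᶠ y in 𝓝 x, r < ‖y‖ :=
  (continuous_norm.tendsto x).eventually (lt_mem_nhds h)

theorem k0 {X : Dat n} (hX : X.Ok) {x : E n} (hx : X.R + 5 ≤ ‖x‖) :
    tr X.g X.K x = 0 ∧ 2 * mu X.g X.K x = scal X.g x ∧ (∀ j, mom X.g X.K j x = 0) ∧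
      ∀ f lam, gt X.g X.K f lam x = 0 := by
  have ev : ∀ᶠ y in 𝓝 x, X.K y = 0 :=
    (ev_lt (show X.R + 3 < ‖x‖ by linarith)).mono fun y hy => hX.K0 y hy.le
  have e0 := ev.self_of_nhds
  have mt : ∀ᶠ y in 𝓝 x, ∀ i j, momT X.g X.K y i j = 0 :=
    ev.mono fun y hy i j => by simp [momT, tr, hy]
  refine ⟨by simp [tr, e0], ?_, fun j => ?_, fun f lam => by simp [gt, tr, b2, e0]⟩
  · simp only [mu, tr, normSq, e0, Pi.zero_apply, mul_zero, Finset.sum_const_zero]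
    ring
  · have h : ∀ i k, pd k (fun y => momT X.g X.K y i j) x = 0 := fun i k => by
      rw [pd_congr (h := fun _ => 0) (mt.mono fun y hy => hy i j), pd_const]
    simp [mom, h, mt.self_of_nhds]

theorem far {X : Dat n} (hX : X.Ok) (f : E n → ℝ) {x : E n} (hx : X.R + 7 ≤ ‖x‖) :
    rc (X.R + 5) x = 0 ∧ (∀ T, ip X.g T (fh X f) x = 0) ∧
      ∀ lam, gt X.g (hess X.g (fh X f)) (fh X f) lam x = 0 := by
  have r0 : 0 ≤ X.R + 5 := by linarith [hX.R1]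
  have ev : fh X f =ᶠ[𝓝 x] fun _ => 0 :=
    (ev_lt (show X.R + 5 + 1 < ‖x‖ by linarith)).mono fun y hy => by
      simp only [fh, J.rc_zero r0 hy.le, zero_mul]
  have e1 : ∀ i, pd i (fh X f) =ᶠ[𝓝 x] fun _ => 0 := fun i =>
    (pd_congr_ev ev i).trans (Eventually.of_forall fun y => pd_const 0 i y)
  have e2 : ∀ i, pd i (fh X f) x = 0 := fun i => (e1 i).self_of_nhds
  have e3 : ∀ i j, hess X.g (fh X f) x i j = 0 := fun i j => by
    simp [hess, e2, pd_congr (e1 j) i, pd_const]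
  exact ⟨J.rc_zero r0 (by linarith), fun T => by simp [ip, e2],
    fun lam => by simp [gt, tr, b2, e3]⟩

theorem sc {φ W S T G Λ I u a q : ℝ} (φ0 : 0 < φ) (φ2 : φ ≤ 2) (W1 : 1 ≤ W) (W2 : W ≤ 2)
    (a0 : 0 ≤ a) (q0 : 0 ≤ q) (h : Λ + G + 4 * a ≤ S + q) (hI : -a ≤ I) :
    -(2 * φ * q * u ^ 2) ≤
      φ * W * u ^ 2 * (S + T ^ 2 + 2 * T * 0 - G - Λ) + 2 * u ^ 2 * φ ^ 2 * (I - 0) := by
  have h1 : W * (4 * a - q) ≤ W * (S + T ^ 2 + 2 * T * 0 - G - Λ) :=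
    mul_le_mul_of_nonneg_left (by linarith [sq_nonneg T]) (by linarith)
  have h2 : φ * -a ≤ φ * I := mul_le_mul_of_nonneg_left hI φ0.le
  have h3 : 0 ≤ W * (S + T ^ 2 + 2 * T * 0 - G - Λ) + 2 * φ * I + 2 * q := by
    linarith [mul_nonneg (sub_nonneg.2 W1) a0, mul_nonneg (sub_nonneg.2 W2) q0,
      mul_nonneg (sub_nonneg.2 φ2) a0]
  linarith [mul_nonneg (mul_nonneg φ0.le (sq_nonneg u)) h3]

theorem flo_le {X : Dat n} {P : Pa} {C cY : ℝ} {ψ f : E n → ℝ} {x : E n} (c0 : 0 ≤ cY)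
    (t0 : 0 ≤ ip X.g f f x) (L0 : 0 ≤ P.L) (t1 : 4 * P.L * ip X.g f f x ≤ 1)
    (h : J.Ga P C (ψ x) (ip X.g f f x)) : flo X P cY ψ f x ≤ 3 * cY := by
  obtain ⟨r0, r1⟩ := J.rc_mem (X.R + 7) x
  have h1 : 1 / 2 ≤ 1 / (1 + 4 * P.L * ip X.g f f x) :=
    one_div_le_one_div_of_le (by positivity) (by linarith)
  have h2 := h1.trans h.io1
  have h3 : 1 / 2 ≤ 1 - rc (X.R + 7) x * P.Gs (ψ x) (ip X.g f f x) * ip X.g f f x := by
    simp only [io] at h2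
    linarith [mul_nonneg (sub_nonneg.2 r1) (mul_nonneg h.Gs0 t0)]
  have h4 : 1 ≤ 1 + (rc (X.R + 6) x * P.φ₀) ^ 2 * ip X.g f f x :=
    le_add_of_nonneg_right (by positivity)
  have h5 := inv_anti₀ (by norm_num) (mul_le_mul h3 h4 zero_le_one (by linarith))
  have h6 := mul_le_mul_of_nonneg_left h5 c0
  simp only [flo]
  norm_num at h6 ⊢
  linarith

theorem lam_le {X : Dat n} {P : Pa} (hP : P.Ok) {σ A₂ cY um A' F : ℝ} {ψ f : E n → ℝ} {x : E n}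
    (z : ℝ) (a0 : 0 ≤ A₂) (a1 : 0 ≤ A') (hF : flo X P cY ψ f x ≤ F) :
    Lam X P ⟨σ, A₂, cY, um, A'⟩ ψ f x z ≤
      rc (X.R + 7) x * σ + (1 - rc (X.R + 7) x) * scal X.g x + F * (rc X.ρ x * P.βf z) := by
  obtain ⟨b0, b1⟩ := hP.βb z
  have r0 := (J.rc_mem X.ρ x).1
  simp only [Lam]
  linarith [mul_nonneg r0 (mul_nonneg a1 (Real.smoothTransition.nonneg (z - um))),
    mul_nonneg (mul_nonneg a0 (Real.smoothTransition.nonneg (4 * f x ^ 2 / P.F₀ ^ 2 - 1)))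
      (sub_nonneg.2 b1), mul_nonneg (mul_nonneg r0 b0) (sub_nonneg.2 hF)]

theorem er_le {φ W G T e : ℝ} (φ0 : 0 < φ) (φ2 : φ ≤ 2) (W1 : 1 ≤ W) (hG : |G| ≤ e)
    (hT : |T| ≤ e) (e1 : e ≤ 1) : (φ / W * G - 0 - T) ^ 2 ≤ 9 * e := by
  have e0 := (abs_nonneg G).trans hG
  have q0 : 0 ≤ φ / W := by positivity
  have q2 : φ / W ≤ 2 := (div_le_self φ0.le W1).trans φ2
  have h1 : |φ / W * G| ≤ 2 * e := by
    rw [abs_mul, abs_of_nonneg q0]
    exact mul_le_mul q2 hG (abs_nonneg G) zero_le_two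
  have h2 : (φ / W * G - 0 - T) ^ 2 ≤ (3 * e) ^ 2 :=
    sq_le_sq' (by linarith [(abs_le.1 h1).1, (abs_le.1 hT).2])
      (by linarith [(abs_le.1 h1).2, (abs_le.1 hT).1])
  linarith [mul_nonneg e0 (sub_nonneg.2 e1)]

theorem low {X : Dat n} {P : Pa} {s₁ B C A₂ cY um A' A e : ℝ} {ψ f u : E n → ℝ} {x : E n}
    (hX : X.Ok) (hP : P.Ok) (hB : Bk X s₁ B) (a0 : 0 ≤ A₂) (a1 : 0 ≤ A') (c0 : 0 ≤ cY)
    (e0 : 0 ≤ e) (e1 : 64 * e ≤ s₁) (e2 : 4 * P.L * e ≤ 1) (hx : X.R + 5 ≤ ‖x‖)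
    (hg : J.Ga P C (ψ x) (ip X.g (fh X f) (fh X f) x)) (h1 : ip X.g (fh X f) (fh X f) x ≤ e)
    (h2 : |Tt X P A f x| ≤ e) (h3 : -e ≤ ip X.g (Tt X P A f) (fh X f) x)
    (h4 : |gt X.g (hess X.g (fh X f)) (fh X f) P.L x| ≤ e) :
    -(2 * P.φ (u x) * (3 * cY * (rc X.ρ x * P.βf (u x))) * u x ^ 2) ≤
      exs X P ⟨s₁ / 8, A₂, cY, um, A'⟩ A ψ f u x := by
  obtain ⟨k1, k2, k3, k4⟩ := k0 hX hx
  obtain ⟨s0, s1⟩ := hB.s0
  have L0 : 0 ≤ P.L := by linarith [hP.pos.2.1]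
  have t0 := (J.mg hX).ip_nonneg (fh X f) x
  have p0 : 0 < P.φ (u x) := hP.φ0.1.trans_le (hP.φb _).1
  have p2 := (hP.φb (u x)).2
  have tL : 4 * P.L * ip X.g (fh X f) (fh X f) x ≤ 1 := le_trans (by gcongr) e2
  have hL := lam_le (σ := s₁ / 8) (um := um) hP (u x) a0 a1 (flo_le c0 t0 L0 tL hg)
  have W1 : 1 ≤ ww X.g (fun y => P.φ (u y)) (fh X f) x :=
    Real.one_le_sqrt.2 (le_add_of_nonneg_right (by positivity))
  have W2 : ww X.g (fun y => P.φ (u y)) (fh X f) x ≤ 2 := by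
    refine Real.sqrt_le_iff.2 ⟨zero_le_two, ?_⟩
    have h : P.φ (u x) ^ 2 * ip X.g (fh X f) (fh X f) x ≤ 2 ^ 2 * e := by gcongr
    linarith
  have q0 : 0 ≤ 3 * cY * (rc X.ρ x * P.βf (u x)) :=
    mul_nonneg (by linarith) (mul_nonneg (J.rc_mem _ _).1 (hP.βb _).1)
  have hs : ‖x‖ ≤ X.R + 8 → s₁ ≤ scal X.g x := fun h => by
    have h' := hB.dec' x (by linarith) h
    linarith [sq_nonneg (tr X.g X.K x)]
  have r7 : 0 ≤ X.R + 7 := by linarith [hX.R1]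
  simp only [exs, ex, lm, if_neg (not_lt.2 hx), k1, k2, k3, zero_mul, Finset.sum_const_zero, er,
    k4]
  rcases le_total ‖x‖ (X.R + 7) with h | h
  · refine sc p0 p2 W1 W2 e0 q0 ?_ h3
    have h5 := er_le p0 p2 W1 h4 h2 (by linarith)
    have h6 := mul_le_mul (show 2 * (1 + P.L * ip X.g (fh X f) (fh X f) x) ≤ 4 by linarith) h5
      (sq_nonneg _) (by norm_num)
    rw [J.rc_one r7 h] at hL
    linarith [hs (by linarith)]
  · obtain ⟨f1, f2, f3⟩ := far hX f h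
    refine sc p0 p2 W1 W2 le_rfl q0 ?_ (by rw [f2, neg_zero])
    have h5 : 0 ≤ rc (X.R + 7) x * (scal X.g x - s₁ / 8) := by
      rcases le_total ‖x‖ (X.R + 8) with h' | h'
      · exact mul_nonneg (J.rc_mem _ _).1 (by linarith [hs h'])
      · rw [J.rc_zero r7 (by linarith), zero_mul]
    simp only [f3, Tt, f1, zero_mul, mul_zero, sub_zero]
    linarith

end Gout

theorem gout_of (cut1 : CUT1) (cut2 : CUT2) : GOUT := by
  intro n s₁ B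
  obtain ⟨C₁, -, hga⟩ := J.ga
  obtain ⟨C₂, cut2⟩ := cut2
  refine ⟨0, le_rfl, fun CK A₂ cY e a0 c0 e0 => ⟨max (max 48 (6 * cY / e)) (max C₁ C₂),
    fun X P hB hC _ M K₀ => ?_⟩⟩
  have hX := hC.hX
  have hP := hC.hP
  obtain ⟨-, L1, τ0, -⟩ := hP.pos
  obtain ⟨s0, s1⟩ := hB.s0
  obtain ⟨η0, η1⟩ := hP.η0
  have φ0 := hP.φ0.1
  have d0 : 0 < s₁ / (64 * P.L) := by positivity
  have d1 : 64 * P.L * (s₁ / (64 * P.L)) = s₁ := by field_simp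
  have b4 := (hC.mono ((le_max_right _ _).trans (le_max_left _ _))).big.b4
  have hc : 6 * cY * P.φ₀ ≤ e * P.η := by
    have h1 : 6 * cY / e * 1 * P.φ₀ ≤ 6 * cY / e * P.L * (P.φ₀ + P.L * P.φ₀ ^ 2 / P.τ) := by
      gcongr
      exact le_add_of_nonneg_right (by positivity)
    have h2 : e * (6 * cY / e * 1 * P.φ₀) = 6 * cY * P.φ₀ := by field_simp
    rw [← h2]
    exact mul_le_mul_of_nonneg_left (h1.trans b4) e0.le
  obtain ⟨ε₁, ε1, cut1⟩ := cut1 n X P s₁ B _ hX hP hB d0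
  obtain ⟨ε₂, ε2, cut2⟩ := cut2 n X P s₁ B K₀ _
    (hC.mono ((le_max_right _ _).trans (le_max_right _ _))) hB d0
  refine ⟨1, one_pos, 12 * cY, min ε₁ ε₂, lt_min ε1 ε2, 1,
    fun h _ B' hB' ε hε A hA θ K um A' a1 ψ f u hS x hx => ?_⟩
  obtain ⟨h1, h2, h3⟩ := (cut1 ε (hε.trans (min_le_left _ _)) A hA M θ K₀ K ψ f hS.jk x).2 hx
  have h4 := cut2 ε (hε.trans (min_le_right _ _)) A hA M θ K ψ f hS.ps hS.jk x hx P.L
    ⟨by linarith, le_rfl⟩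
  have hg := hga P hP (hC.mono ((le_max_left _ _).trans (le_max_right _ _))).big (ψ x)
    (hS.ps.bd x) _ ((J.mg hX).ip_nonneg (fh X f) x)
  have lo := Gout.low (u := u) (um := um) hX hP hB a0 a1 c0 d0.le
    (by linarith [mul_nonneg (sub_nonneg.2 L1) d0.le]) (by linarith) hx hg h1 h2 h3 h4
  have u0 : 0 ≤ u x := by linarith [hS.lo x]
  obtain ⟨r0, r1⟩ := J.rc_mem X.ρ x
  obtain ⟨β0, β1⟩ := hP.βb (u x)
  obtain ⟨p0, p2⟩ := hP.φb (u x)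
  have q1 : rc X.ρ x * P.βf (u x) ≤ 1 := mul_le_one₀ r1 β0 β1
  have q0 := mul_nonneg r0 β0
  refine ⟨?_, le_trans (neg_le_neg ?_) lo, fun _ => le_trans (neg_le_neg ?_) lo⟩
  · rw [lm, if_neg (not_lt.2 hx)]
    exact Gout.it1 hP (hC.mono ((le_max_left _ _).trans (le_max_left _ _))).big u0
  · have h5 : 2 * P.φ (u x) * (3 * cY * (rc X.ρ x * P.βf (u x))) ≤ 2 * 2 * (3 * cY * 1) := by
      gcongr
    exact mul_le_mul_of_nonneg_right (by linarith) (sq_nonneg _)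
  · by_cases hx' : x ∈ closedBall (0 : E n) (X.ρ + 1)
    · rw [indicator_of_mem hx']
      rcases le_total (u x) (1 - P.η) with hu | hu
      · have h5 : 2 * P.φ₀ * (3 * cY * (rc X.ρ x * P.βf (u x))) * u x ^ 2 ≤
            2 * P.φ₀ * (3 * cY * 1) * 1 ^ 2 := by
          gcongr
          linarith
        rw [hP.φlo _ hu]
        linarith
      · rw [hP.β0 _ hu]
        linarith [mul_pos e0 η0]
    · rw [indicator_of_notMem hx', J.rc_zero (by linarith [hX.R1, hX.Rρ])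
        (not_le.1 (mem_closedBall_zero_iff.not.1 hx')).le]
      linarith

end Vale.Agent.P366Y.D
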