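import Vale.Agent.P366Y.D.Defs

/-!
# P366Y, block D: the bounds of the capillary term and of the function after the cut
-/

open MeasureTheory Metric Filter Topology Set
open scoped ContDiff ENNReal
open Vale.Agent.P366.Stmt Vale.Agent.P366Z
open Vale.Agent.P366Y.J (rc_mem rc_zero sm_rc)

noncomputable section

namespace Vale.Agent.P366Y.D

namespace HbH

theorem sum_le {n : ℕ} {F : Fin n → ℝ} {c : ℝ} (h : ∀ i, F i ≤ c) : ∑ i, F i ≤ n * c :=
  (Finset.sum_le_card_nsmul _ _ _ fun i _ => h i).trans_eq (by simp)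

theorem mul_le {a b A B : ℝ} (h : |a| ≤ A) (h' : |b| ≤ B) : |a * b| ≤ A * B :=
  (abs_mul a b).trans_le (mul_le_mul h h' (abs_nonneg _) ((abs_nonneg _).trans h))

theorem add_le {a b A B : ℝ} (h : |a| ≤ A) (h' : |b| ≤ B) : |a + b| ≤ A + B :=
  (abs_add_le a b).trans (add_le_add h h')

theorem rc_le {n : ℕ} (r : ℝ) (x : E n) : |rc r x| ≤ 1 :=
  (abs_of_nonneg (rc_mem r x).1).trans_le (rc_mem r x).2

end HbH

open HbH

/-- **row CPB** -/
theorem cpb : CPB := by
  intro n X P s₁ B A f hX hP hB hf h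
  have s1 : Smooth (cp X P A f) := (hP.smT.comp hf).add (ContDiff.mul
    ((ContDiff.mul (sm_rc _) hX.smp).add ((contDiff_const.sub (sm_rc _)).mul contDiff_const))
    (ContDiff.div_const hf _).arctan)
  have k : ∀ x, |cp X P A f x| ≤ 2 * P.CK + 2 * B := fun x => by
    obtain ⟨r0, r1⟩ := rc_mem (X.R + 3) x
    obtain ⟨p0, p1⟩ := hX.pb x
    obtain ⟨-, -, -, -, -, -, q0, q1, -⟩ := hP.pos
    obtain ⟨b0, b1⟩ := hB.B1
    refine add_le (hP.Tb _ (h x)) ((mul_le (A := B) (B := 2) (abs_le.2 ⟨?_, ?_⟩)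
      (abs_le.2 ⟨?_, ?_⟩)).trans_eq (mul_comm _ _))
    · nlinarith [mul_nonneg r0 p0, mul_nonneg (sub_nonneg.2 r1) q0.le]
    · nlinarith [mul_le_mul_of_nonneg_left (p1.trans b1) r0,
        mul_le_mul_of_nonneg_left (q1.trans b0) (sub_nonneg.2 r1)]
    · linarith [Real.neg_pi_div_two_lt_arctan (f x / (1 / A ^ 2)), Real.pi_le_four]
    · linarith [Real.arctan_lt_pi_div_two (f x / (1 / A ^ 2)), Real.pi_le_four]
  exact ⟨s1, ContDiff.mul (sm_rc _) s1, fun x =>
    ⟨k x, (mul_le (rc_le _ x) (k x)).trans_eq (one_mul _)⟩⟩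

/-- **row HB** -/
theorem hb : HB := by
  intro n X P s₁ B M K₀ hX hP hB
  have b0 := hB.B1.1
  have f0 := hP.pos.2.2.2.2.1
  obtain ⟨c, hc⟩ : ∃ c, c = B * (8 * P.F₀) + |M| := ⟨_, rfl⟩
  obtain ⟨e, he⟩ : ∃ e, e = B * (8 * P.F₀) + B * |M| + B * |M| + |K₀| + n * (B * c) := ⟨_, rfl⟩
  have c0 : 0 ≤ B * (8 * P.F₀) := by positivity
  have c1 : 0 ≤ B * (n * c ^ 2) := by positivity
  have c2 : 0 ≤ n * (n * (n * (n * (B * B * e * e)))) := by
    rw [mul_assoc (B * B)]
    have := mul_self_nonneg e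
    positivity
  refine ⟨1 + B * (n * c ^ 2) + n * (n * (n * (n * (B * B * e * e)))), by linarith,
    fun A hA θ ε K ψ f h => ?_⟩
  have hf := h.sm
  have sr := sm_rc (n := n) (X.R + 5)
  have d0 : ∀ x i, |pd i f x| ≤ |M| := fun x i =>
    (abs_pd_le (hf.diff x) i).trans ((h.grad x).trans (le_abs_self M))
  have d1 : ∀ i, pd i (fh X f) = fun x => pd i (rc (X.R + 5)) x * f x + rc (X.R + 5) x * pd i f x :=
    fun i => funext fun x => pd_mul (sr.diff x) (hf.diff x) i
  have d2 : ∀ x i, |pd i (fh X f) x| ≤ c := fun x i => by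
    rw [d1, hc, ← one_mul |M|]
    exact add_le (mul_le (hB.cut x i i).2.1 (h.sup x)) (mul_le (rc_le _ x) (d0 x i))
  have d3 : ∀ u x, (∀ i, |pd i u x| ≤ c) → ip X.g u u x ≤ B * (n * c ^ 2) := fun u x k =>
    ((hB.el x).up_hi _).trans (mul_le_mul_of_nonneg_left
      (sum_le fun i => sq_le_sq' (abs_le.1 (k i)).1 (abs_le.1 (k i)).2) (by linarith))
  refine ⟨ContDiff.mul sr hf, fun x => ⟨(d3 f x fun i => (d0 x i).trans (by linarith)).trans
    (by linarith), (d3 _ x (d2 x)).trans (by linarith), ?_⟩⟩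
  refine le_trans (b := n * (n * (n * (n * (B * B * e * e)))) * A ^ 2) ?_
    (mul_le_mul_of_nonneg_right (by linarith) (sq_nonneg A))
  rcases le_or_gt ‖x‖ (X.ρ + 1) with hx | hx
  · obtain ⟨-, -, -, k1, k2⟩ := hB.bd x hx
    have d4 : ∀ i j, |hess X.g (fh X f) x i j| ≤ e * A := fun i j => by
      have k3 : |pd i (pd j f) x| ≤ |K₀| * A :=
        ((norm_le_pi_norm (D2 f x i) j).trans ((norm_le_pi_norm (D2 f x) i).trans (h.d2 x))).trans
          (mul_le_mul_of_nonneg_right (le_abs_self K₀) (by linarith))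
      have k4 : |∑ k, chr X.g k i j x * pd k (fh X f) x| ≤ n * (B * c) :=
        (Finset.abs_sum_le_sum_abs _ _).trans (sum_le fun k => mul_le (k1 k i j) (d2 x k))
      have k5 := (abs_nonneg _).trans k4
      have k6 : 0 ≤ B * |M| := by positivity
      rw [hess, d1 j, pd_add (((sr.pd j).diff x).fun_mul (hf.diff x))
        ((sr.diff x).fun_mul ((hf.pd j).diff x)), pd_mul ((sr.pd j).diff x) (hf.diff x),
        pd_mul (sr.diff x) ((hf.pd j).diff x)]
      refine ((abs_sub _ _).trans (add_le_add (add_le (add_le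
        (mul_le (hB.cut x i j).2.2 (h.sup x)) (mul_le (hB.cut x j j).2.1 (d0 x i))) (add_le
        (mul_le (hB.cut x i i).2.1 (d0 x j)) (mul_le (rc_le _ x) k3))) k4)).trans ?_
      rw [he]
      nlinarith
    refine (sum_le fun i => sum_le fun j => sum_le fun k => sum_le fun l => (le_abs_self _).trans
      (mul_le (mul_le (mul_le (k2 i k) (k2 j l)) (d4 i j)) (d4 k l))).trans_eq (by ring)
  · have ev : fh X f =ᶠ[𝓝 x] fun _ => 0 := by
      filter_upwards [(isOpen_lt continuous_const continuous_norm).mem_nhds hx] with y hy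
      have : X.ρ + 1 < ‖y‖ := hy
      rw [fh, rc_zero (by linarith [hX.R1]) (by linarith [hX.Rρ]), zero_mul]
    have k : ∀ i j, hess X.g (fh X f) x i j = 0 := fun i j => by
      simp only [hess, pd_congr ev, pd_congr (pd_congr_ev ev j), funext (pd_const 0 j), pd_const,
        mul_zero, Finset.sum_const_zero, sub_zero]
    simp only [normSq, k, mul_zero, Finset.sum_const_zero]
    exact mul_nonneg c2 (sq_nonneg A)

end Vale.Agent.P366Y.D
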