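import Vale.Agent.P366Y.D.Defs

/-!
# P366Y, block D: the scalar inequalities (row SCA)
-/

noncomputable section

namespace Vale.Agent.P366Y.D

namespace ScaH

theorem amgm {τ : ℝ} (hτ : 0 < τ) (u a : ℝ) : 2 * a * u ≤ τ * u ^ 2 + a ^ 2 / τ := by
  have h : τ * u ^ 2 + a ^ 2 / τ - 2 * a * u = (τ * u - a) ^ 2 / τ := by
    field_simp
    ring
  have : 0 ≤ (τ * u - a) ^ 2 / τ := by positivity
  linarith

theorem lo {φ W t M : ℝ} (hW : 0 < W) (h : W ^ 2 = 1 + φ ^ 2 * t) (ht : M ^ 2 ≤ t) :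
    φ * M ≤ W :=
  (abs_le_of_sq_le_sq' (by nlinarith [mul_le_mul_of_nonneg_left ht (sq_nonneg φ)]) hW.le).2

theorem one {D L τ p M φ W t G q : ℝ} (hD : 1 ≤ D) (hL : 1 ≤ L) (hτ : 0 < τ) (hp : 0 < p)
    (hM : 1 ≤ M) (k : 10 * D ^ 2 * L ≤ τ * p ^ 4 * M) (hφ : p ≤ φ) (hW : 0 < W)
    (h : W ^ 2 = 1 + φ ^ 2 * t) (hG : G ≤ 1 + 4 * L * t) (q0 : 0 ≤ q) (hq : q * W ^ 2 ≤ 1)
    (ht : M ^ 2 ≤ t) : φ * W * (2 * G * (q * D) ^ 2) ≤ τ * φ ^ 2 * t := by
  have φ0 : 0 < φ := hp.trans_le hφ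
  have t1 : 1 ≤ t := (one_le_pow₀ hM).trans ht
  have g1 : G ≤ 5 * L * t := by nlinarith
  have w1 : p ^ 4 * M ≤ φ * W ^ 3 :=
    calc p ^ 4 * M ≤ φ ^ 4 * M ^ 3 := by
          gcongr
          exact le_self_pow₀ hM three_ne_zero
      _ = φ * (φ * M) ^ 3 := by ring
      _ ≤ φ * W ^ 3 := by
          gcongr
          exact lo hW h ht
  have w2 : 10 * D ^ 2 * L * (W * q ^ 2) ≤ τ * φ := by
    refine le_of_mul_le_mul_right ?_ (pow_pos hW 3)
    calc 10 * D ^ 2 * L * (W * q ^ 2) * W ^ 3 = 10 * D ^ 2 * L * (q * W ^ 2) ^ 2 := by ring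
      _ ≤ 10 * D ^ 2 * L * 1 := by
          gcongr
          exact pow_le_one₀ (by positivity) hq
      _ ≤ τ * (p ^ 4 * M) := by linarith
      _ ≤ τ * (φ * W ^ 3) := by gcongr
      _ = τ * φ * W ^ 3 := by ring
  calc φ * W * (2 * G * (q * D) ^ 2) ≤ φ * W * (2 * (5 * L * t) * (q * D) ^ 2) := by gcongr
    _ = φ * t * (10 * D ^ 2 * L * (W * q ^ 2)) := by ring
    _ ≤ φ * t * (τ * φ) := by gcongr
    _ = τ * φ ^ 2 * t := by ring

theorem two {D L τ p M W t G E : ℝ} (hD : 1 ≤ D) (hL : 1 ≤ L) (hτ : 0 < τ) (hp : 0 < p)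
    (p1 : p ≤ 1) (hM : 1 ≤ M) (k : 10 * D ^ 2 * L ≤ τ * p ^ 4 * M)
    (k' : 9 * D ^ 2 * (L * (p + L * p ^ 2 / τ)) ≤ E) (t0 : 0 ≤ t) (hW : 0 < W)
    (h : W ^ 2 = 1 + p ^ 2 * t) (hG : G ≤ 1 + 4 * L * t) (hG' : t ≤ M ^ 2 → G ≤ 4 * L * W ^ 2) :
    p * W * (D * (2 + G / W ^ 2)) ≤ τ * p ^ 2 * t + E := by
  have w1 : 1 ≤ W := by nlinarith [mul_nonneg (sq_nonneg p) t0]
  have w2 : τ * (W - 1) ^ 2 ≤ τ * p ^ 2 * t := by
    rw [mul_assoc]
    gcongr
    nlinarith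
  have a1 := amgm hτ (W - 1) (3 * L * D * p)
  have a2 : (3 * L * D * p) ^ 2 / τ = 9 * D ^ 2 * (L * (L * p ^ 2 / τ)) := by ring
  have a3 : L * D * p ≤ D ^ 2 * (L * p) := by
    have : 0 ≤ (D - 1) * (D * (L * p)) := by
      have : 0 ≤ D - 1 := by linarith
      positivity
    nlinarith
  have a4 : 0 ≤ L * D * p := by positivity
  have a5 : 6 * (L * D * p) * W ≤ τ * (W - 1) ^ 2 + E := by nlinarith
  rcases le_total t (M ^ 2) with ht | ht
  · have g1 : G / W ^ 2 ≤ 4 * L := by rw [div_le_iff₀ (by positivity)]; exact hG' ht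
    calc p * W * (D * (2 + G / W ^ 2)) ≤ p * W * (D * (2 * L + 4 * L)) := by
          gcongr
          linarith
      _ = 6 * (L * D * p) * W := by ring
      _ ≤ _ := by linarith
  · have t1 : 1 ≤ t := (one_le_pow₀ hM).trans ht
    have g1 : G ≤ 5 * L * t := by nlinarith
    have b1 : 10 * D * L ≤ τ * p * W :=
      calc 10 * D * L ≤ 10 * D ^ 2 * L := by
            gcongr
            exact le_self_pow₀ hD two_ne_zero
        _ ≤ τ * p ^ 4 * M := k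
        _ ≤ τ * p ^ 2 * M := by
            gcongr τ * ?_ * M
            exact pow_le_pow_of_le_one hp.le p1 (by norm_num)
        _ = τ * p * (p * M) := by ring
        _ ≤ τ * p * W := by
            gcongr
            exact lo hW h ht
    have b2 : p * W * (D * (G / W ^ 2)) ≤ τ * p ^ 2 * t / 2 := by
      rw [show p * W * (D * (G / W ^ 2)) = p * D * G / W by field_simp, div_le_iff₀ hW]
      calc p * D * G ≤ p * D * (5 * L * t) := by gcongr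
        _ = p * t / 2 * (10 * D * L) := by ring
        _ ≤ p * t / 2 * (τ * p * W) := by gcongr
        _ = _ := by ring
    have b3 : D * p * W ≤ L * D * p * W := by
      have : 0 ≤ (L - 1) * (D * p * W) := by
        have : 0 ≤ L - 1 := by linarith
        positivity
      nlinarith
    have b4 : 0 ≤ E := le_trans (by positivity) k'
    have b5 : 0 ≤ τ * p ^ 2 * t := by positivity
    nlinarith

end ScaH

open ScaH in
/-- **SCA** -/
theorem sca : SCA := by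
  intro s D e hs hD he
  refine ⟨10 * D ^ 2 + 9 * D ^ 2 / e, fun P hP hB => ?_⟩
  obtain ⟨-, hL, hτ, -, -, hM, -⟩ := hP.pos
  obtain ⟨hp, p1⟩ := hP.φ0
  obtain ⟨η0, η1⟩ := hP.η0
  have c0 : 0 ≤ 9 * D ^ 2 / e := by positivity
  have k : 10 * D ^ 2 * P.L ≤ P.τ * P.φ₀ ^ 4 * P.M₀ :=
    calc 10 * D ^ 2 * P.L ≤ (10 * D ^ 2 + 9 * D ^ 2 / e) * P.L := by gcongr; linarith
      _ ≤ P.η * (P.τ * P.φ₀ ^ 4 * P.M₀) := hB.b3.trans_eq (by ring)
      _ ≤ _ := mul_le_of_le_one_left (by positivity) (by linarith)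
  have k' : 9 * D ^ 2 * (P.L * (P.φ₀ + P.L * P.φ₀ ^ 2 / P.τ)) ≤ e * P.η :=
    calc _ = e * (9 * D ^ 2 / e * P.L * (P.φ₀ + P.L * P.φ₀ ^ 2 / P.τ)) := by field_simp
      _ ≤ e * ((10 * D ^ 2 + 9 * D ^ 2 / e) * P.L * (P.φ₀ + P.L * P.φ₀ ^ 2 / P.τ)) := by
          gcongr
          nlinarith [sq_nonneg D]
      _ ≤ _ := by
          gcongr
          exact hB.b4
  obtain ⟨N, hN⟩ : ∃ N, N = 1 + 4 * P.L * P.M₀ ^ 2 := ⟨_, rfl⟩
  have N0 : 0 < N := by rw [hN]; positivity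
  obtain ⟨c, c1, c2, c3⟩ : ∃ c : ℝ, 0 < c ∧ c ≤ 1 ∧ c ≤ s / (64 * N * D ^ 2) :=
    ⟨min 1 _, lt_min one_pos (by positivity), min_le_left _ _, min_le_right _ _⟩
  refine ⟨c * P.φ₀, by positivity, mul_le_of_le_one_left hp.le c2,
    fun φ W t G hφ _ t0 hW h G0 hG => ⟨fun q q0 hq hq' => ?_, fun e1 hG' => ?_⟩⟩
  · have φ0 : 0 < φ := hp.trans_le hφ
    rcases le_total t (P.M₀ ^ 2) with ht | ht
    · have q1 : q ≤ 2 * c := le_of_mul_le_mul_right ((hq' ht).trans_eq (by ring)) hp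
      have g1 : G ≤ N := hG.trans (by rw [hN]; gcongr)
      rw [le_div_iff₀ (by positivity)] at c3
      have g2 : 2 * G * (q * D) ^ 2 ≤ s / 8 :=
        calc 2 * G * (q * D) ^ 2 ≤ 2 * N * (2 * c * D) ^ 2 := by gcongr
          _ = c * (c * (64 * N * D ^ 2) / 8) := by ring
          _ ≤ 1 * (s / 8) := by gcongr
          _ = s / 8 := one_mul _
      exact (mul_le_mul_of_nonneg_left g2 (by positivity)).trans
        (le_add_of_nonneg_right (by positivity))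
    · exact (one hD hL hτ hp hM k hφ hW h hG q0 hq ht).trans
        (le_add_of_nonneg_left (by positivity))
  · subst e1
    exact two hD hL hτ hp p1 hM k k' t0 hW h hG hG'

end Vale.Agent.P366Y.D
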