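import Vale.Agent.P366Y.D.Defs
import Vale.Agent.P366Z.Int

/-!
# P366Y, block D: the hypotheses of the test
-/

open MeasureTheory Metric Filter Topology Set
open scoped ContDiff ENNReal
open Vale.Agent.P366.Stmt Vale.Agent.P366Z

noncomputable section

namespace Vale.Agent.P366Y.D

theorem el_mono {n : ℕ} {g : Field n} {B B' : ℝ} {x : E n} (hg : Met g) (h : C.El g B x)
    (e : B ≤ B') : C.El g B' x :=
  ⟨fun ξ => (h.g_hi ξ).trans (mul_le_mul_of_nonneg_right e (by positivity)),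
    fun ξ => (h.g_lo ξ).trans (mul_le_mul_of_nonneg_right e (hg.g_nonneg x ξ)),
    fun ξ => (h.up_hi ξ).trans (mul_le_mul_of_nonneg_right e (by positivity)),
    fun ξ => (h.up_lo ξ).trans (mul_le_mul_of_nonneg_right e (hg.up_nonneg x ξ)),
    h.dens_hi.trans e, h.dens_lo.trans (mul_le_mul_of_nonneg_right e (dens_nonneg _ _))⟩

theorem bdd_l (l : List ℝ) : ∃ C : ℝ, ∀ a ∈ l, a ≤ C := l.finite_toSet.bddAbove

theorem tst_of2 (hBK : BK) (hCP : CPB) (hHB : HB) (hI : GIN) (hO : GOUT) : TST := by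
  intro n X CK hX
  have hn := hX.dim
  have hg := J.mg hX
  obtain ⟨s₁, B₁, hB⟩ := hBK n X hX
  obtain ⟨A₁, A10, hI⟩ := hI n s₁ B₁
  obtain ⟨A₂, -, hO⟩ := hO n s₁ B₁
  have s0 := hB.s0.1
  have B1 := hB.B1.1
  refine ⟨s₁ / 8, by positivity, max A₁ A₂, A10.trans (le_max_left _ _), fun cY cY0 => ?_⟩
  obtain ⟨V, hV⟩ : ∃ V, V = volume.real (closedBall (0 : E n) (X.ρ + 1)) := ⟨_, rfl⟩
  have V0 : 0 ≤ V := hV ▸ measureReal_nonneg
  have ω0 := omega_pos (n := n) (by omega)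
  have γ0 : 0 < gam n := one_pos.trans (one_lt_gam hn)
  have n2 := nm2_pos hn
  obtain ⟨e, he⟩ : ∃ e, e = 4 * gam n * (n - 2) * omega n / (B₁ * (V + 1)) := ⟨_, rfl⟩
  have e0 : 0 < e := by rw [he]; positivity
  obtain ⟨C₁, hI⟩ := hI CK _ cY e (le_max_left A₁ A₂) cY0 e0
  obtain ⟨C₂, hO⟩ := hO CK _ cY e (le_max_right A₁ A₂) cY0 e0
  refine ⟨max C₁ C₂, fun P hP M θ K₀ a a0 => ?_⟩
  have cx : J.Cx X P (max C₁ C₂) := ⟨hX, hP.ok, hP.fo, hP.big⟩
  obtain ⟨h₁, h1, D₁, ε₁, ε1, E₁, hI⟩ := hI X P hB (cx.mono (le_max_left _ _)) hP.ck M K₀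
  obtain ⟨h₂, h2, D₂, ε₂, ε2, E₂, hO⟩ := hO X P hB (cx.mono (le_max_right _ _)) hP.ck M K₀
  obtain ⟨B', B'1, hHB⟩ := hHB n X P s₁ B₁ M K₀ hX hP.ok hB
  have l1 := hP.ok.pos.1
  have φ0 := hP.ok.φ0.1
  obtain ⟨η0, η1⟩ := hP.ok.η0
  obtain ⟨B, hb⟩ := bdd_l [B₁, D₁, D₂, B', 1 / P.φ₀, 4 * P.lam, 16 * a ^ 2 * B', 2 * P.CK + 2 * B₁]
  obtain ⟨A₀, hA⟩ := bdd_l [E₁, E₂, 1]
  have b1 : B₁ ≤ B := hb _ (by simp)
  have b2 : 4 * P.lam ≤ B := hb _ (by simp)
  refine ⟨min ε₁ ε₂, lt_min ε1 ε2, B, B1.trans b1, min h₁ h₂ / (2 * P.lam),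
    div_pos (lt_min h1 h2) (by linarith), A₀,
    fun ε hε A hA' K ψ f u um β A' A'0 ps jk ge near su lo eqn as => ?_⟩
  have A1 : 1 ≤ A := (hA 1 (by simp)).trans hA'
  have st : Sit X P M θ K₀ ε A K ψ f u := ⟨ps, jk, ge, su, lo⟩
  have gd : ∀ x, Gd X P ⟨s₁ / 8, max A₁ A₂, cY, um, A'⟩ A e (min h₁ h₂) B ψ f u x := fun x => by
    rcases lt_or_ge ‖x‖ (X.R + 5) with k | k
    · exact hI _ (min_le_left _ _) B (hb _ (by simp)) ε (hε.trans (min_le_left _ _)) A
        ((hA _ (by simp)).trans hA') θ K um A' A'0 ψ f u st x k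
    · exact hO _ (min_le_right _ _) B (hb _ (by simp)) ε (hε.trans (min_le_right _ _)) A
        ((hA _ (by simp)).trans hA') θ K um A' A'0 ψ f u st x k
  obtain ⟨sf, bf⟩ := hHB A A1 θ ε K ψ f jk
  obtain ⟨-, sT, bT⟩ := hCP n X P s₁ B₁ A f hX hP.ok hB jk.sm jk.sup
  have i0 : ∀ x, 0 ≤ (closedBall (0 : E n) (X.ρ + 1)).indicator (fun _ => e * P.η) x := fun x =>
    indicator_nonneg (fun _ _ => by positivity) x
  refine ⟨Tt X P A f, lm X P ψ f,
    fun x => Lam X P ⟨s₁ / 8, max A₁ A₂, cY, um, A'⟩ ψ (fh X f) x (u x),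
    fun x => B₁ * (closedBall (0 : E n) (X.ρ + 1)).indicator (fun _ => e * P.η) x,
    { met := hg
      sy := ⟨hX.smK, hX.syK⟩
      smf := sf
      smT := sT
      smu := su
      smU := hX.smU
      smF := hP.ok.smφ
      u0 := fun x => by linarith [lo x]
      U0 := J.U0 hX
      el := fun x => el_mono hg (hB.el x) b1
      Fb := fun t ht => ⟨?_, by linarith [(hP.ok.φb t).2], (hP.ok.φd t).1, ?_⟩
      df := fun x => (bf x).2.1.trans (hb _ (by simp))
      d2f := fun x => (bf x).2.2.trans ?_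
      Kb := fun x => (hB.Kb x).1.trans b1
      Tb := fun x => (bT x).2.trans (hb _ (by simp))
      lam0 := fun x => (gd x).1
      eqn := eqn
      all := fun x => (gd x).2.1
      good := fun x hx => ?_
      int := (((integrable_indicator_iff measurableSet_closedBall).2
        (integrableOn_const measure_closedBall_lt_top.ne))).const_mul _
      θ0 := fun x => mul_nonneg (by linarith) (i0 x)
      far := fun x hx => ⟨?_, ?_⟩
      asyU := hX.asy
      asy := as }, ?_⟩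
  · have k : 1 / P.φ₀ ≤ B := hb _ (by simp)
    rw [div_le_iff₀ φ0] at k
    exact k.trans (mul_le_mul_of_nonneg_left (hP.ok.φb t).1 (by linarith))
  · rcases le_or_gt t 2 with k | k
    · have k1 := (hP.ok.φd t).2.trans (mul_le_mul_of_nonneg_left (hP.ok.φb t).2 (by linarith))
      nlinarith [(hP.ok.φd t).1]
    · have ev : P.φ =ᶠ[𝓝 t] fun _ => 2 := by
        filter_upwards [Ioi_mem_nhds k] with z hz
        exact hP.ok.φhi z (by linarith [show (2 : ℝ) < z from hz])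
      rw [ev.deriv_eq, deriv_const, mul_zero]
      linarith
  · have k : 16 * a ^ 2 * B' ≤ B := hb _ (by simp)
    rw [le_div_iff₀ (by positivity)]
    refine le_trans (le_of_eq ?_) k
    field_simp
    norm_num
  · have k := (gd x).2.2 fun k => by
      rcases hx with hx | hx
      · rw [hP.ok.φhi _ (by linarith)]
        linarith [(ps.bd x).2, lt_min h1 h2]
      · have k1 := near x k fun y hy => hx y (by rwa [show 4 * (a / A) / 2 = 2 * (a / A) by ring])
        rwa [mul_div_cancel₀ _ (by linarith)] at k1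
    have k1 := mul_le_mul_of_nonneg_left k (dens_nonneg X.g x)
    have k2 := mul_le_mul_of_nonneg_right (hB.el x).dens_hi (i0 x)
    change _ ≤ _ * exs X P ⟨s₁ / 8, max A₁ A₂, cY, um, A'⟩ A ψ f u x
    linarith
  · funext i j
    simp only [Dat.g, cf, hX.flat x hx]
  · rw [fh, J.rc_zero (by linarith [hX.R1]) (by linarith [hX.Rρ]), zero_mul]
  · rw [integral_const_mul, integral_indicator_const _ measurableSet_closedBall, ← hV, smul_eq_mul]
    have k : B₁ * (V * (e * P.η)) ≤ B₁ * ((V + 1) * (e * P.η)) := by gcongr; linarith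
    refine k.trans (le_of_eq ?_)
    rw [he]
    field_simp

end Vale.Agent.P366Y.D
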