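import Vale.Agent.P366Y.D.Defs

/-!
# P366Y, block D: the constants of the data
-/

open Metric Filter Topology Set
open Vale.Agent.P366.Stmt Vale.Agent.P366Z

noncomputable section

namespace Vale.Agent.P366Y.D

namespace BkH

variable {n : ℕ} {F : E n → ℝ}

theorem evb (hF : Continuous F) (r : ℝ) : ∀ᶠ B in atTop, ∀ x, ‖x‖ ≤ r → |F x| ≤ B := by
  obtain ⟨K, hK⟩ := (isCompact_closedBall (0 : E n) r).exists_bound_of_continuousOn hF.continuousOn
  filter_upwards [eventually_ge_atTop K] with B hB x hx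
  exact (hK x (by simpa using hx)).trans hB

theorem evc (hF : Continuous F) (r : ℝ) (h : ∀ x, r < ‖x‖ → F x = 0) :
    ∀ᶠ B in atTop, ∀ x, |F x| ≤ B := by
  filter_upwards [evb hF r, eventually_ge_atTop 0] with B hB h0 x
  by_cases hx : r < ‖x‖
  · rwa [h x hx, abs_zero]
  · exact hB x (not_lt.1 hx)

theorem rp {u : ℝ} (h1 : 3 / 4 ≤ u) (h2 : u ≤ 9 / 8) (p : ℝ) : u ^ p ≤ 2 ^ |p| := by
  have h0 : 0 < u := by linarith
  rcases le_total 0 p with hp | hp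
  · rw [abs_of_nonneg hp]
    exact Real.rpow_le_rpow h0.le (by linarith) hp
  · rw [abs_of_nonpos hp, Real.rpow_neg zero_le_two, ← Real.inv_rpow zero_le_two]
    exact Real.rpow_le_rpow_of_nonpos (by norm_num) (by linarith) hp

theorem sc {u p T Λ B : ℝ} (h1 : 3 / 4 ≤ u) (h2 : u ≤ 9 / 8) (hT : 2 ^ |p| ≤ T) (hΛ : 1 ≤ Λ)
    (hB : T * Λ ≤ B) {a s : ℝ} (ha : 0 ≤ a) (hs : 0 ≤ s) :
    (a ≤ Λ * s → u ^ p * a ≤ B * s) ∧ (s ≤ Λ * a → s ≤ B * (u ^ p * a)) := by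
  have h0 : 0 < u := by linarith
  have k0 := Real.rpow_pos_of_pos h0 p
  have k1 := (rp h1 h2 p).trans hT
  have k2 : 1 ≤ T * u ^ p := by
    have := (rp h1 h2 (-p)).trans (abs_neg p ▸ hT)
    rwa [Real.rpow_neg h0.le, inv_le_iff_one_le_mul₀ k0] at this
  refine ⟨fun h => ?_, fun h => ?_⟩
  · calc u ^ p * a ≤ T * (Λ * s) := mul_le_mul k1 h ha (k0.le.trans k1)
      _ = T * Λ * s := by ring
      _ ≤ B * s := by gcongr
  · calc s ≤ 1 * (Λ * a) := by rwa [one_mul]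
      _ ≤ T * u ^ p * (Λ * a) := by gcongr
      _ = T * Λ * (u ^ p * a) := by ring
      _ ≤ B * (u ^ p * a) := by gcongr

theorem el {X : Dat n} (h : X.Ok) : ∀ᶠ B in atTop, ∀ x, C.El X.g B x := by
  obtain ⟨Λ, hΛ⟩ := h.met.ell h.flat
  filter_upwards [eventually_ge_atTop (2 ^ |2 * bb n| * Λ),
    eventually_ge_atTop (2 ^ |n * bb n| * Λ)] with B h1 h2 x
  have s0 : ∀ ξ : Fin n → ℝ, 0 ≤ ∑ i, ξ i ^ 2 := fun ξ => by positivity
  have e1 : ∀ ξ : Fin n → ℝ, ∑ i, ∑ j, X.g x i j * ξ i * ξ j =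
      X.U x ^ (2 * bb n) * ∑ i, ∑ j, X.g₀ x i j * ξ i * ξ j := fun ξ => by
    simp only [Dat.g, cf, Finset.mul_sum, mul_assoc]
  have e2 : ∀ ξ : Fin n → ℝ, ∑ i, ∑ j, up X.g i j x * ξ i * ξ j =
      X.U x ^ (-(2 * bb n)) * ∑ i, ∑ j, up X.g₀ i j x * ξ i * ξ j := fun ξ => by
    simp only [Dat.g, h.met.up_cf (J.U0 h x), Finset.mul_sum, mul_assoc]
  have e3 : dens X.g x = X.U x ^ (n * bb n) * dens X.g₀ x := dens_cf (J.U0 h x)
  have k1 := fun ξ => sc (h.Ub x).1 (h.Ub x).2 le_rfl hΛ.one h1 (h.met.g_nonneg x ξ) (s0 ξ)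
  have k2 := fun ξ => sc (p := -(2 * bb n)) (h.Ub x).1 (h.Ub x).2 (by rw [abs_neg]) hΛ.one h1
    (h.met.up_nonneg x ξ) (s0 ξ)
  have k3 := sc (h.Ub x).1 (h.Ub x).2 le_rfl hΛ.one h2 (dens_nonneg X.g₀ x) zero_le_one
  exact ⟨fun ξ => e1 ξ ▸ (k1 ξ).1 (hΛ.g_hi x ξ), fun ξ => e1 ξ ▸ (k1 ξ).2 (hΛ.g_lo x ξ),
    fun ξ => e2 ξ ▸ (k2 ξ).1 (hΛ.up_hi x ξ), fun ξ => e2 ξ ▸ (k2 ξ).2 (hΛ.up_lo x ξ),
    e3 ▸ (mul_one B) ▸ k3.1 ((mul_one Λ).symm ▸ hΛ.dens_hi x), e3 ▸ k3.2 (hΛ.dens_lo x)⟩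

variable {g K : Field n}

theorem sm_tr (hg : Met g) (hK : ∀ i j, Smooth fun x => K x i j) : Smooth (tr g K) :=
  ContDiff.sum fun i _ => ContDiff.sum fun j _ => ContDiff.mul (hg.sm_up i j) (hK i j)

theorem sm_ns (hg : Met g) (hK : ∀ i j, Smooth fun x => K x i j) : Smooth (normSq g K) :=
  ContDiff.sum fun i _ => ContDiff.sum fun j _ => ContDiff.sum fun k _ => ContDiff.sum fun l _ =>
    ContDiff.mul (ContDiff.mul (ContDiff.mul (hg.sm_up i k) (hg.sm_up j l)) (hK i j)) (hK k l)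

theorem sm_mom (hg : Met g) (hK : ∀ i j, Smooth fun x => K x i j) (j : Fin n) :
    Smooth (mom g K j) := by
  have h : ∀ i j, Smooth fun y => momT g K y i j := fun i j =>
    ContDiff.sub (hK i j) (ContDiff.mul (sm_tr hg hK) (hg.sm i j))
  exact ContDiff.sum fun i _ => ContDiff.sum fun k _ => ContDiff.mul (hg.sm_up i k)
    (ContDiff.sub ((h i j).pd k) (ContDiff.sum fun l _ => ContDiff.add
      (ContDiff.mul (hg.sm_chr l k i) (h l j)) (ContDiff.mul (hg.sm_chr l k j) (h i l))))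

theorem c_mu (hg : Met g) (hK : ∀ i j, Smooth fun x => K x i j) : Continuous (mu g K) :=
  ((hg.sm_scal.cont.add ((sm_tr hg hK).cont.pow 2)).sub (sm_ns hg hK).cont).div_const 2

theorem c_cov (hg : Met g) (hK : ∀ i j, Smooth fun x => K x i j) :
    Continuous (covNorm g (mom g K)) :=
  (continuous_finsetSum _ fun i _ => continuous_finsetSum _ fun j _ =>
    ((hg.sm_up i j).cont.mul (sm_mom hg hK i).cont).mul (sm_mom hg hK j).cont).sqrt

theorem rc_ev {r : ℝ} (hr : 0 ≤ r) {x : E n} (hx : r + 1 < ‖x‖) : rc r =ᶠ[𝓝 x] fun _ => 0 := by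
  filter_upwards [(isOpen_lt continuous_const continuous_norm).mem_nhds hx] with z hz
  exact J.rc_zero hr (le_of_lt hz)

theorem cut {r : ℝ} (hr : 0 ≤ r) : ∀ᶠ B in atTop, ∀ i j, (∀ x : E n, |pd i (rc r) x| ≤ B) ∧
    ∀ x : E n, |pd i (pd j (rc r)) x| ≤ B :=
  eventually_all.2 fun i => eventually_all.2 fun j =>
    (evc ((J.sm_rc r).pd i).cont (r + 1) fun x hx => by
      rw [pd_congr (rc_ev hr hx), pd_const]).and
    (evc (((J.sm_rc r).pd j).pd i).cont (r + 1) fun x hx => by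
      rw [pd_congr (pd_congr_ev (rc_ev hr hx) j), funext (pd_const 0 j), pd_const])

theorem gap {G : E n → ℝ} (hF : Continuous F) (hG : Continuous G) {S : Set (E n)} (hS : IsClosed S)
    (r : ℝ) (h : ∀ x ∈ S, ‖x‖ ≤ r → F x < G x) :
    ∃ s > (0 : ℝ), ∀ x ∈ S, ‖x‖ ≤ r → F x + s ≤ G x := by
  obtain ⟨s, h1, h2⟩ := ((isCompact_closedBall (0 : E n) r).inter_left hS).exists_forall_le'
    (hG.sub hF).continuousOn (a := 0) fun x hx => sub_pos.2 (h x hx.1 (by simpa using hx.2))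
  exact ⟨s, h1, fun x h3 h4 => le_sub_iff_add_le'.1 (h2 x ⟨h3, by simpa using h4⟩)⟩

end BkH

open BkH

theorem bk : BK := by
  intro n X h
  have hg := J.mg h
  have c1 := (sm_tr hg h.smK).cont
  have c2 := c_mu hg h.smK
  have c3 := c_cov hg h.smK
  have c4 : Continuous (gn X.g X.p) := (hg.sm_ip h.smp h.smp).cont.sqrt
  obtain ⟨s, s0, hs⟩ := gap (((c3.const_mul 2).add (c4.const_mul 4)).add ((c1.pow 2).min
    ((h.smp.cont.const_mul 4).mul c1.abs))) (c2.const_mul 2)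
    (isClosed_le continuous_const h.smF.cont) (X.R + 2) h.dec
  obtain ⟨t, t0, ht⟩ := gap (c1.pow 2) (c2.const_mul 2)
    (isClosed_le continuous_const continuous_norm) (X.R + 8) h.dec'
  have a1 := (evc (sm_ns hg h.smK).cont (X.R + 3) fun x hx => by
    simp [normSq, h.K0 x hx.le]).and (evc c1 (X.R + 3) fun x hx => by simp [tr, h.K0 x hx.le])
  have a2 := ((evb c2 (X.ρ + 1)).and (evb c3 (X.ρ + 1))).and ((evb c4 (X.ρ + 1)).and
    ((eventually_all.2 fun k => eventually_all.2 fun i => eventually_all.2 fun j =>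
      evb (hg.sm_chr k i j).cont (X.ρ + 1)).and
      (eventually_all.2 fun i => eventually_all.2 fun j => evb (hg.sm_up i j).cont (X.ρ + 1))))
  have a3 := (cut (n := n) (r := X.R + 3) (by linarith [h.R1])).and
    (cut (n := n) (r := X.R + 5) (by linarith [h.R1]))
  obtain ⟨B, ⟨⟨b1, b2⟩, b3⟩, ⟨b4, b5⟩, b6⟩ := ((((eventually_ge_atTop 1).and
    (eventually_ge_atTop X.p₀)).and (el h)).and ((a1.and a2).and a3)).exists
  refine ⟨min (min s t) 1, B, ⟨by positivity, min_le_right _ _⟩, ⟨b1, b2⟩, b3,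
    fun x => ⟨(le_abs_self _).trans (b4.1 x), b4.2 x⟩, fun x hx => ⟨b5.1.1 x hx,
      (le_abs_self _).trans (b5.1.2 x hx), (le_abs_self _).trans (b5.2.1 x hx),
      fun k i j => b5.2.2.1 k i j x hx, fun i j => b5.2.2.2 i j x hx⟩, fun x h1 h2 => ?_,
    fun x h1 h2 => ?_, fun x i j => ⟨(b6.1 i j).1 x, (b6.2 i j).1 x, (b6.2 i j).2 x⟩⟩
  · exact (add_le_add_right ((min_le_left _ _).trans (min_le_left _ _)) _).trans (hs x h1 h2)
  · exact (add_le_add_right ((min_le_left _ _).trans (min_le_right _ _)) _).trans (ht x h1 h2)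

end Vale.Agent.P366Y.D
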