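import Vale.Agent.P366Y.Sk3

/-!
# P366Y, block D: the pointwise estimates for the coupled system (statements)
-/

open MeasureTheory Metric Filter Topology Set
open scoped ContDiff ENNReal
open Vale.Agent.P366.Stmt Vale.Agent.P366Z
open Vale.Agent.P366Y.C (ex er gt ww b2 Tst)
open Vale.Agent.P366Y.J (io Jk Cx)

noncomputable section

namespace Vale.Agent.P366Y.D

variable {n : ℕ}

/-- the capillary term along `f` -/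
def cp (X : Dat n) (P : Pa) (A : ℝ) (f : E n → ℝ) (x : E n) : ℝ := cap X P (1 / A ^ 2) x (f x)

/-- the capillary term after the cut -/
def Tt (X : Dat n) (P : Pa) (A : ℝ) (f : E n → ℝ) (x : E n) : ℝ := rc (X.R + 5) x * cp X P A f x

/-- the coefficient of the gauge inside -/
def li (X : Dat n) (P : Pa) (ψ f : E n → ℝ) (x : E n) : ℝ :=
  P.Gs (ψ x) (ip X.g f f x) / io P (ψ x) (ip X.g f f x)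

/-- the coefficient of the gauge -/
def lm (X : Dat n) (P : Pa) (ψ f : E n → ℝ) (x : E n) : ℝ :=
  if ‖x‖ < X.R + 5 then li X P ψ f x else P.L

/-- the switch of the deep zone -/
def dz (P : Pa) (z : ℝ) : ℝ := Real.smoothTransition (4 * z ^ 2 / P.F₀ ^ 2 - 1)

/-- the constants of the data -/
structure Bk (X : Dat n) (s₁ B : ℝ) : Prop where
  s0 : 0 < s₁ ∧ s₁ ≤ 1
  B1 : 1 ≤ B ∧ X.p₀ ≤ B
  el : ∀ x, C.El X.g B x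
  Kb : ∀ x, normSq X.g X.K x ≤ B ∧ |tr X.g X.K x| ≤ B
  bd : ∀ x, ‖x‖ ≤ X.ρ + 1 → |mu X.g X.K x| ≤ B ∧ covNorm X.g (mom X.g X.K) x ≤ B ∧
    gn X.g X.p x ≤ B ∧ (∀ k i j, |chr X.g k i j x| ≤ B) ∧ ∀ i j, |up X.g i j x| ≤ B
  dec : ∀ x, 0 ≤ X.F x → ‖x‖ ≤ X.R + 2 → 2 * covNorm X.g (mom X.g X.K) x + 4 * gn X.g X.p x +
    min (tr X.g X.K x ^ 2) (4 * X.p x * |tr X.g X.K x|) + s₁ ≤ 2 * mu X.g X.K x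
  dec' : ∀ x, X.R + 2 ≤ ‖x‖ → ‖x‖ ≤ X.R + 8 → tr X.g X.K x ^ 2 + s₁ ≤ 2 * mu X.g X.K x
  cut : ∀ (x : E n) i j, |pd i (rc (X.R + 3)) x| ≤ B ∧ |pd i (rc (X.R + 5)) x| ≤ B ∧
    |pd i (pd j (rc (X.R + 5))) x| ≤ B

/-- **BK**: the constants exist -/
def BK : Prop := ∀ (n : ℕ) (X : Dat n), X.Ok → ∃ s₁ B, Bk X s₁ B

/-- **CPB**: the capillary term is smooth and bounded -/
def CPB : Prop := ∀ (n : ℕ) (X : Dat n) (P : Pa) (s₁ B A : ℝ) (f : E n → ℝ), X.Ok → P.Ok →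
  Bk X s₁ B → Smooth f → (∀ x, |f x| ≤ 8 * P.F₀) → Smooth (cp X P A f) ∧ Smooth (Tt X P A f) ∧
    ∀ x, |cp X P A f x| ≤ 2 * P.CK + 2 * B ∧ |Tt X P A f x| ≤ 2 * P.CK + 2 * B

/-- **GEO**: the terms that do not depend on `u` -/
def GEO : Prop := ∀ (n : ℕ) (s₁ B : ℝ), ∃ C : ℝ, ∃ A₁ ≥ (0 : ℝ), ∀ (X : Dat n) (P : Pa), Cx X P C →
  Bk X s₁ B → ∃ A₀ : ℝ, ∀ A ≥ A₀, ∀ (M θ K₀ ε K : ℝ) (ψ f : E n → ℝ), Jk X P M θ K₀ ε A K ψ f →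
    ∀ x, ‖x‖ ≤ X.R + 5 → ∀ φ W : ℝ, 0 < φ → φ ≤ 2 → 0 < W → W ^ 2 = 1 + φ ^ 2 * ip X.g f f x →
      φ * W * (s₁ / 2) + 2 * P.τ * φ ^ 2 * ip X.g f f x ≤
        φ * W * (2 * mu X.g X.K x + cp X P A f x ^ 2 + 2 * cp X P A f x * tr X.g X.K x +
          A₁ * dz P (f x)) +
        2 * φ ^ 2 * (ip X.g (cp X P A f) f x - ∑ j, mom X.g X.K j x * gr X.g f j x)

/-- **GAU**: the defect of the gauge inside -/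
def GAU : Prop := ∃ C : ℝ, ∀ (n : ℕ) (X : Dat n) (P : Pa), Cx X P C →
  ∀ (M θ K₀ ε A K : ℝ) (ψ f φ : E n → ℝ) (x : E n), Jk X P M θ K₀ ε A K ψ f → ‖x‖ ≤ X.R + 7 →
    P.φ₀ ≤ φ x → φ x ≤ ψ x → ψ x ≤ 2 → 12 * P.lam * φ x ^ 2 ≤ li X P ψ f x ∧
    1 + li X P ψ f x * ip X.g f f x = (io P (ψ x) (ip X.g f f x))⁻¹ ∧
    1 + li X P ψ f x * ip X.g f f x ≤ 1 + 4 * P.L * ip X.g f f x ∧
    (ip X.g f f x ≤ P.M₀ ^ 2 → li X P ψ f x = P.L * ψ x ^ 2) ∧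
    |gt X.g X.K f (li X P ψ f x) x| ≤ P.CK ∧ ∃ q : ℝ, 0 ≤ q ∧
      q * (1 + φ x ^ 2 * ip X.g f f x) ≤ 1 ∧
      (ip X.g f f x ≤ P.M₀ ^ 2 → q * P.φ₀ ≤ 2 * (ψ x - φ x)) ∧
      er X.g X.K φ f (cp X P A f) (li X P ψ f x) x =
        -q * (gt X.g X.K f (li X P ψ f x) x + cp X P A f x)

/-- **CUT1**: the terms of order at most one are small in the zone of the cut -/
def CUT1 : Prop := ∀ (n : ℕ) (X : Dat n) (P : Pa) (s₁ B e : ℝ), X.Ok → P.Ok →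
  Bk X s₁ B → 0 < e → ∃ ε₀ > (0 : ℝ), ∀ ε ≤ ε₀, ∀ A ≥ (1 : ℝ), ∀ (M θ K₀ K : ℝ) (ψ f : E n → ℝ),
    Jk X P M θ K₀ ε A K ψ f → ∀ x, (X.R + 4 ≤ ‖x‖ → ‖x‖ ≤ X.R + 6 →
      |cp X P A f x| ≤ e ∧ ip X.g f f x ≤ e) ∧ (X.R + 5 ≤ ‖x‖ →
      ip X.g (fh X f) (fh X f) x ≤ e ∧ |Tt X P A f x| ≤ e ∧ -e ≤ ip X.g (Tt X P A f) (fh X f) x)

/-- **CUT2**: the trace of the Hessian is small in the zone of the cut -/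
def CUT2 : Prop := ∃ C : ℝ, ∀ (n : ℕ) (X : Dat n) (P : Pa) (s₁ B K₀ e : ℝ), Cx X P C →
  Bk X s₁ B → 0 < e → ∃ ε₀ > (0 : ℝ), ∀ ε ≤ ε₀, ∀ A ≥ (1 : ℝ), ∀ (M θ K : ℝ) (ψ f : E n → ℝ),
    Ps X P A ψ → Jk X P M θ K₀ ε A K ψ f → ∀ x, X.R + 5 ≤ ‖x‖ →
      ∀ lam ∈ Icc 0 P.L, |gt X.g (hess X.g (fh X f)) (fh X f) lam x| ≤ e

/-- **HB**: the bounds of the function after the cut -/
def HB : Prop := ∀ (n : ℕ) (X : Dat n) (P : Pa) (s₁ B M K₀ : ℝ), X.Ok → P.Ok → Bk X s₁ B →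
  ∃ B' ≥ (1 : ℝ), ∀ A ≥ (1 : ℝ), ∀ (θ ε K : ℝ) (ψ f : E n → ℝ), Jk X P M θ K₀ ε A K ψ f →
    Smooth (fh X f) ∧ ∀ x, ip X.g f f x ≤ B' ∧ ip X.g (fh X f) (fh X f) x ≤ B' ∧
      normSq X.g (hess X.g (fh X f)) x ≤ B' * A ^ 2

/-- **SCA**: the scalar inequalities; `t = |df|²`, `G = Γ`, `D` bounds the gauge -/
def SCA : Prop := ∀ s₁ D e : ℝ, 0 < s₁ → 1 ≤ D → 0 < e → ∃ C : ℝ, ∀ P : Pa, P.Ok → P.Big C →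
  ∃ h > (0 : ℝ), h ≤ P.φ₀ ∧ ∀ φ W t G : ℝ, P.φ₀ ≤ φ → φ ≤ 2 → 0 ≤ t → 0 < W →
    W ^ 2 = 1 + φ ^ 2 * t → 0 ≤ G → G ≤ 1 + 4 * P.L * t →
    (∀ q, 0 ≤ q → q * W ^ 2 ≤ 1 → (t ≤ P.M₀ ^ 2 → q * P.φ₀ ≤ 2 * h) →
      φ * W * (2 * G * (q * D) ^ 2) ≤ φ * W * (s₁ / 8) + P.τ * φ ^ 2 * t) ∧
    (φ = P.φ₀ → (t ≤ P.M₀ ^ 2 → G ≤ 4 * P.L * W ^ 2) →
      φ * W * (D * (2 + G / W ^ 2)) ≤ P.τ * φ ^ 2 * t + e * P.η)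

/-- the situation of the test -/
structure Sit (X : Dat n) (P : Pa) (M θ K₀ ε A K : ℝ) (ψ f u : E n → ℝ) : Prop where
  ps : Ps X P A ψ
  jk : Jk X P M θ K₀ ε A K ψ f
  ge : ∀ x, P.φ (u x) ≤ ψ x
  smu : Smooth u
  lo : ∀ x, 1 - 2 * P.η ≤ u x

/-- the terms of order zero of the coupled system -/
def exs (X : Dat n) (P : Pa) (c : Cu) (A : ℝ) (ψ f u : E n → ℝ) (x : E n) : ℝ :=
  ex X.g X.K (fun y => P.φ (u y)) (fh X f) (Tt X P A f) u (lm X P ψ f x)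
    (Lam X P c ψ (fh X f) x (u x)) x

/-- the conclusion at the point `x` -/
def Gd (X : Dat n) (P : Pa) (c : Cu) (A e h B' : ℝ) (ψ f u : E n → ℝ) (x : E n) : Prop :=
  4 * P.φ (u x) * (P.φ (u x) + u x * deriv P.φ (u x)) ≤ lm X P ψ f x ∧
    -(B' * u x ^ 2) ≤ exs X P c A ψ f u x ∧ ((‖x‖ ≤ X.R + 4 → ψ x ≤ P.φ (u x) + h) →
      -(closedBall (0 : E n) (X.ρ + 1)).indicator (fun _ => e * P.η) x ≤ exs X P c A ψ f u x)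

/-- the two pointwise estimates on the set of the points `x` with `Z X x` -/
def Good (Z : ∀ {n : ℕ}, Dat n → E n → Prop) : Prop := ∀ (n : ℕ) (s₁ B : ℝ), ∃ A₁ ≥ (0 : ℝ),
  ∀ CK A₂ cY e : ℝ, A₁ ≤ A₂ → 0 ≤ cY → 0 < e → ∃ C : ℝ, ∀ (X : Dat n) (P : Pa), Bk X s₁ B →
    Cx X P C → P.CK = CK → ∀ M K₀ : ℝ, ∃ h₀ > (0 : ℝ), ∃ B₀ : ℝ, ∃ ε₀ > (0 : ℝ), ∃ A₀ : ℝ,
      ∀ h ≤ h₀, ∀ B' ≥ B₀, ∀ ε ≤ ε₀, ∀ A ≥ A₀, ∀ (θ K um : ℝ), ∀ A' ≥ (0 : ℝ), ∀ ψ f u,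
        Sit X P M θ K₀ ε A K ψ f u → ∀ x, Z X x → Gd X P ⟨s₁ / 8, A₂, cY, um, A'⟩ A e h B' ψ f u x

/-- **GIN**: inside -/
def GIN : Prop := Good fun X x => ‖x‖ < X.R + 5

/-- **GOUT**: in the zone of the cut and outside -/
def GOUT : Prop := Good fun X x => X.R + 5 ≤ ‖x‖

end Vale.Agent.P366Y.D
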